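import Vale.Agent.P142.Coef

/-! The area theorem. -/

open Complex Real Metric Set MeasureTheory
open scoped ENNReal ComplexConjugate

namespace Vale.Agent.P142

theorem cv {S : Set ℂ} (hS : MeasurableSet S) {φ φ' : ℂ → ℂ} (hd : ∀ z ∈ S, HasDerivAt φ (φ' z) z)
    (hi : InjOn φ S) (F : ℂ → ℝ≥0∞) :
    ∫⁻ z in φ '' S, F z = ∫⁻ z in S, ENNReal.ofReal (‖φ' z‖ ^ 2) * F (φ z) := by
  rw [lintegral_image_eq_lintegral_abs_det_fderiv_mul volume hS
    (fun z hz => ((hd z hz).hasFDerivAt.restrictScalars ℝ).hasFDerivWithinAt) hi]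
  refine lintegral_congr fun z => ?_
  congr 2
  simp [ContinuousLinearMap.det, LinearMap.det_restrictScalars, Algebra.norm_complex_eq,
    normSq_eq_norm_sq]

theorem pol_aux {F : ℂ → ℝ≥0∞} (hF : Measurable F) : ∫⁻ z, F z =
    ∫⁻ p in Ioi (0 : ℝ) ×ˢ Ioo (-π) π, ENNReal.ofReal p.1 * F (circleMap 0 p.1 p.2)
      ∂(volume.prod volume) ∧
    Measurable fun p : ℝ × ℝ => ENNReal.ofReal p.1 * F (circleMap 0 p.1 p.2) := by
  refine ⟨?_, measurable_fst.ennreal_ofReal.mul (hF.comp circleMap.continuous.measurable)⟩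
  rw [← Complex.lintegral_comp_polarCoord_symm]
  refine lintegral_congr fun p => ?_
  simp [circleMap_zero, exp_mul_I]

theorem circ {g : ℂ → ℝ} {t : ℝ} (ht : 0 < t) (hg : ContinuousOn g (sphere 0 t))
    (h0 : ∀ z, ‖z‖ = t → 0 ≤ g z) : ∫⁻ θ in Ioo (-π) π, ENNReal.ofReal (g (circleMap 0 t θ)) =
      ENNReal.ofReal (2 * π * circleAverage g 0 t) := by
  have hc : Continuous fun θ => g (circleMap 0 t θ) :=
    hg.comp_continuous (continuous_circleMap 0 t) fun θ => circleMap_mem_sphere 0 ht.le θ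
  rw [← ofReal_integral_eq_lintegral_ofReal
    ((hc.continuousOn.integrableOn_compact isCompact_Icc).mono_set Ioo_subset_Icc_self)
    (.of_forall fun θ => h0 _ (by simp [abs_of_pos ht])), circleAverage_eq_integral_add (-π),
    intervalIntegral.integral_comp_add_right (fun θ => g (circleMap 0 t θ)), smul_eq_mul,
    mul_inv_cancel_left₀ (by positivity), zero_add, show 2 * π + -π = π by ring,
    intervalIntegral.integral_of_le (by linarith [pi_pos]), integral_Ioc_eq_integral_Ioo]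

theorem ann {g : ℂ → ℝ} (hm : Measurable g) {I : Set ℝ} (hI : MeasurableSet I) (hI0 : I ⊆ Ioi 0)
    (hg : ∀ t ∈ I, ContinuousOn g (sphere 0 t)) (h0 : ∀ z, 0 ≤ g z) :
    ∫⁻ z in {z : ℂ | ‖z‖ ∈ I}, ENNReal.ofReal (g z) =
      ∫⁻ t in I, ENNReal.ofReal (t * (2 * π * circleAverage g 0 t)) := by
  have hS : MeasurableSet {z : ℂ | ‖z‖ ∈ I} := measurable_norm hI
  obtain ⟨h1, h2⟩ := pol_aux (hm.ennreal_ofReal.indicator hS)
  rw [← lintegral_indicator hS, h1, setLIntegral_prod _ h2.aemeasurable,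
    ← inter_eq_self_of_subset_left hI0, ← Measure.restrict_restrict hI, ← lintegral_indicator hI]
  refine setLIntegral_congr_fun measurableSet_Ioi fun t (ht : 0 < t) => ?_
  by_cases h : t ∈ I
  · rw [indicator_of_mem h, ENNReal.ofReal_mul ht.le, ← circ ht (hg t h) fun z _ => h0 z,
      ← lintegral_const_mul' _ _ ENNReal.ofReal_ne_top]
    refine lintegral_congr fun θ => ?_
    rw [indicator_of_mem (by simpa [abs_of_pos ht] using (⟨h, ht.ne'⟩ : t ∈ I ∧ t ≠ 0))]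
  · rw [indicator_of_notMem h]
    refine (lintegral_congr fun θ => ?_).trans lintegral_zero
    rw [indicator_of_notMem (by simp [abs_of_pos ht, h]), mul_zero]

theorem avg_re {u : ℂ → ℂ} {r : ℝ} (hr : 0 < r) (hu : ∀ z, ‖z‖ ≤ r → DifferentiableAt ℂ u z) :
    circleAverage (fun z => (u z).re) 0 r = (u 0).re := by
  rw [← avg_hol hr hu]
  exact reCLM.circleAverage_comp_comm (ContinuousOn.circleIntegrable hr.le fun z hz =>
    (hu z (le_of_eq (by simpa using hz))).continuousAt.continuousWithinAt)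

theorem ell_meas (q V : ℝ) (a : ℂ) :
    MeasurableSet {s : ℂ | ‖s‖ < 1 ∧ q ^ 2 < V * ‖s‖ ^ 2 - (a * s ^ 2).re} :=
  ((isOpen_lt continuous_norm continuous_const).inter (isOpen_lt continuous_const
    (g := fun s : ℂ => V * ‖s‖ ^ 2 - (a * s ^ 2).re) (by fun_prop))).measurableSet

theorem ell {q V : ℝ} {a : ℂ} (hq : 0 < q) (hV : q ^ 2 + ‖a‖ < V) :
    ∫⁻ s in {s : ℂ | ‖s‖ < 1 ∧ q ^ 2 < V * ‖s‖ ^ 2 - (a * s ^ 2).re},
      ENNReal.ofReal (q ^ 2 / ‖s‖ ^ 4) = ENNReal.ofReal (π * (V - q ^ 2)) := by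
  have hS := ell_meas q V a
  have hm : Measurable fun s : ℂ => q ^ 2 / ‖s‖ ^ 4 := by fun_prop
  obtain ⟨h1, h2⟩ := pol_aux (hm.ennreal_ofReal.indicator hS)
  have hb : ∀ z : ℂ, ‖z‖ = 1 → q ^ 2 < V - (a * z ^ 2).re := fun z hz => by
    have := re_le_norm (a * z ^ 2)
    rw [norm_mul, norm_pow, hz] at this
    linarith
  have e : circleAverage (fun z : ℂ => (V - (a * z ^ 2).re - q ^ 2) / 2) 0 1 = (V - q ^ 2) / 2 := by
    have := avg_re (u := fun z => (V - a * z ^ 2 - q ^ 2) / 2) one_pos fun z _ => by fun_prop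
    simpa [← ofReal_pow] using this
  rw [← lintegral_indicator hS, h1, setLIntegral_prod_symm _ h2.aemeasurable,
    show π * (V - q ^ 2) = 2 * π * ((V - q ^ 2) / 2) by ring, ← e,
    ← circ one_pos (by fun_prop) fun z hz => by linarith [hb z hz]]
  refine lintegral_congr fun θ => ?_
  set σ := V - (a * circleMap 0 1 θ ^ 2).re with hσ
  have hσ1 : q ^ 2 < σ := hb _ (by simp)
  have hσ0 : 0 < σ := (sq_nonneg q).trans_lt hσ1
  have hs := Real.sqrt_pos.2 hσ0
  have hτ : 0 < q / √σ := by positivity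
  have hτ1 : q / √σ < 1 := (div_lt_one hs).2 (Real.lt_sqrt_of_sq_lt hσ1)
  have key : ∀ t, 0 < t → (circleMap 0 t θ ∈
      {s : ℂ | ‖s‖ < 1 ∧ q ^ 2 < V * ‖s‖ ^ 2 - (a * s ^ 2).re} ↔ t ∈ Ioo (q / √σ) 1) := by
    intro t ht
    have e1 : (a * circleMap 0 t θ ^ 2).re = t ^ 2 * (a * circleMap 0 1 θ ^ 2).re := by
      rw [← re_ofReal_mul]
      simp only [circleMap_zero]
      push_cast
      ring_nf
    have e2 : V * t ^ 2 - t ^ 2 * (a * circleMap 0 1 θ ^ 2).re = (t * √σ) ^ 2 := by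
      rw [mul_pow, Real.sq_sqrt hσ0.le, hσ]; ring
    rw [mem_setOf_eq, norm_circleMap_zero, abs_of_pos ht, e1, e2, mem_Ioo, div_lt_iff₀ hs,
      sq_lt_sq₀ hq.le (by positivity), and_comm]
  have e3 : ∫ t in (q / √σ)..1, q ^ 2 / t ^ 3 = (σ - q ^ 2) / 2 := by
    have hu : ∀ t ∈ uIcc (q / √σ) 1, t ≠ 0 := fun t ht => by
      rw [uIcc_of_le hτ1.le] at ht
      exact (hτ.trans_le ht.1).ne'
    rw [intervalIntegral.integral_eq_sub_of_hasDerivAt (f := fun t => -q ^ 2 / 2 * (t ^ 2)⁻¹)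
      (f' := fun t => q ^ 2 / t ^ 3) (fun t ht => ?_) (ContinuousOn.intervalIntegrable (continuousOn_const.div
        (continuousOn_pow 3) fun t ht => pow_ne_zero _ (hu t ht)))]
    · rw [div_pow, Real.sq_sqrt hσ0.le]
      field_simp
      ring
    · refine (((hasDerivAt_pow 2 t).inv (pow_ne_zero _ (hu t ht))).const_mul _).congr_deriv ?_
      have := hu t ht
      simp only [Nat.cast_ofNat]
      field_simp
      ring
  rw [← e3, intervalIntegral.integral_of_le hτ1.le, integral_Ioc_eq_integral_Ioo,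
    ofReal_integral_eq_lintegral_ofReal, ← lintegral_indicator measurableSet_Ioo,
    ← lintegral_indicator measurableSet_Ioi]
  · refine lintegral_congr fun t => ?_
    by_cases ht : 0 < t
    · rw [indicator_of_mem (show t ∈ Ioi 0 from ht)]
      by_cases h : t ∈ Ioo (q / √σ) 1
      · rw [indicator_of_mem h, indicator_of_mem ((key t ht).2 h), ← ENNReal.ofReal_mul ht.le,
          norm_circleMap_zero, abs_of_pos ht]
        congr 1
        field_simp
      · rw [indicator_of_notMem h, indicator_of_notMem (mt (key t ht).1 h), mul_zero]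
    · rw [indicator_of_notMem (show t ∉ Ioi 0 from ht),
        indicator_of_notMem fun h => ht (hτ.trans h.1)]
  · exact ((continuousOn_const.div (continuousOn_pow 3) fun t ht => pow_ne_zero _
      (hτ.trans_le ht.1).ne').integrableOn_compact isCompact_Icc).mono_set Ioo_subset_Icc_self
  · exact (ae_restrict_iff' measurableSet_Ioo).2 (.of_forall fun t ht => by
      have := hτ.trans ht.1
      positivity)

theorem hol_deriv {h : ℂ → ℂ} {R : ℝ} (hd : ∀ s, ‖s‖ < R → DifferentiableAt ℂ h s) (s : ℂ)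
    (hs : ‖s‖ < R) : DifferentiableAt ℂ (deriv h) s :=
  ((DifferentiableOn.deriv (s := ball 0 R) (fun z hz => (hd z (by simpa using hz)).differentiableWithinAt)
    isOpen_ball) s (by simpa using hs)).differentiableAt (isOpen_ball.mem_nhds (by simpa using hs))

theorem nsq (c s k : ℂ) (hs : s ≠ 0) : ‖-c / s ^ 2 + k‖ ^ 2 =
    ‖c‖ ^ 2 / ‖s‖ ^ 4 + ‖k‖ ^ 2 - 2 / ‖s‖ ^ 4 * (conj c * s ^ 2 * k).re := by
  have h0 : ‖s‖ ≠ 0 := norm_ne_zero_iff.2 hs
  have e : -c / s ^ 2 + k = (s ^ 2 * k - c) / s ^ 2 := by field_simp; ring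
  have e2 : ‖s ^ 2 * k - c‖ ^ 2 = ‖s‖ ^ 4 * ‖k‖ ^ 2 + ‖c‖ ^ 2 - 2 * (conj c * s ^ 2 * k).re := by
    rw [← normSq_eq_norm_sq, normSq_sub, normSq_eq_norm_sq, normSq_eq_norm_sq, norm_mul, norm_pow,
      mul_comm (s ^ 2 * k), mul_assoc]
    ring
  rw [e, norm_div, div_pow, e2, norm_pow]
  field_simp
  ring

theorem orth {k : ℂ → ℂ} (hm : Measurable k) (hk : ∀ s, ‖s‖ < 1 → DifferentiableAt ℂ k s) (c : ℂ)
    {ε : ℝ} (hε : 0 < ε) :
    ∫⁻ s in {z : ℂ | ‖z‖ ∈ Ioo ε 1}, ENNReal.ofReal (‖-c / s ^ 2 + k s‖ ^ 2) =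
      ∫⁻ s in {z : ℂ | ‖z‖ ∈ Ioo ε 1}, ENNReal.ofReal (‖c‖ ^ 2 / ‖s‖ ^ 4 + ‖k s‖ ^ 2) := by
  have hI : Ioo ε 1 ⊆ Ioi 0 := fun t ht => hε.trans ht.1
  have hc : ∀ t ∈ Ioo ε 1, ContinuousOn k (sphere 0 t) := fun t ht z hz =>
    (hk z (by rw [show ‖z‖ = t by simpa using hz]; exact ht.2)).continuousAt.continuousWithinAt
  have h2 : ∀ t ∈ Ioo ε 1, ContinuousOn (fun s => ‖c‖ ^ 2 / ‖s‖ ^ 4 + ‖k s‖ ^ 2) (sphere 0 t) :=
    fun t ht => (continuousOn_const.div (continuous_norm.continuousOn.pow 4) fun z hz =>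
      pow_ne_zero _ (norm_ne_zero_iff.2 (ne0 (hI ht) hz))).add ((hc t ht).norm.pow 2)
  rw [ann (g := fun s => ‖-c / s ^ 2 + k s‖ ^ 2) (by fun_prop) measurableSet_Ioo hI
      (fun t ht => ((continuousOn_const.div
      (continuousOn_pow 2) fun z hz => pow_ne_zero _ (ne0 (hI ht) hz)).add (hc t ht)).norm.pow 2)
      fun z => by positivity,
    ann (by fun_prop) measurableSet_Ioo hI h2 fun z => by positivity]
  refine setLIntegral_congr_fun measurableSet_Ioo fun t ht => ?_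
  have ht0 : 0 < t := hI ht
  have h3 : circleAverage (fun s => 2 / t ^ 4 * (conj c * s ^ 2 * k s).re) 0 t = 0 := by
    have := avg_re (u := fun s => conj c * s ^ 2 * k s) ht0 fun z hz =>
      DifferentiableAt.mul (by fun_prop) (hk z (hz.trans_lt ht.2))
    have e := circleAverage_fun_smul (a := 2 / t ^ 4) (c := 0) (R := t)
      (f := fun s => (conj c * s ^ 2 * k s).re)
    rw [this] at e
    simpa using e
  have h4 := circleAverage_fun_sub ((h2 t ht).circleIntegrable ht0.le)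
    (f₂ := fun s => 2 / t ^ 4 * (conj c * s ^ 2 * k s).re) (ContinuousOn.circleIntegrable ht0.le
      (continuousOn_const.mul (continuous_re.comp_continuousOn
        (ContinuousOn.mul (by fun_prop) (hc t ht)))))
  rw [h3, sub_zero] at h4
  rw [← h4, circleAverage_congr_sphere (f₂ := fun s => ‖c‖ ^ 2 / ‖s‖ ^ 4 + ‖k s‖ ^ 2 -
    2 / t ^ 4 * (conj c * s ^ 2 * k s).re) fun z hz => ?_]
  rw [abs_of_pos ht0] at hz
  simp only
  rw [nsq c z (k z) (ne0 ht0 hz), show ‖z‖ = t by simpa using hz]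

theorem vol_cb {r : ℝ} (hr : 0 ≤ r) :
    volume (closedBall (0 : ℂ) r) = ENNReal.ofReal (π * r ^ 2) := by
  rw [Complex.volume_closedBall, mul_comm, ENNReal.ofReal_mul pi_pos.le, ENNReal.ofReal_pow hr]
  congr 1
  rw [← NNReal.coe_real_pi, ENNReal.ofReal_coe_nnreal]

end Vale.Agent.P142
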