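import Vale.Agent.P142.Area

/-! The area theorem, conclusion. -/

open Complex Real Metric Set MeasureTheory Filter Topology
open scoped ENNReal ComplexConjugate

namespace Vale.Agent.P142

theorem small {h : ℂ → ℂ} {c : ℂ} (hd : ∀ s, ‖s‖ < 1 → DifferentiableAt ℂ h s) (h0 : h 0 = 0)
    {δ : ℝ} (hδ : 0 < δ) : ∃ ε > 0, ∀ s, ‖s‖ < ε →
      ‖c + s * h s‖ ^ 2 ≤ ‖c‖ ^ 2 + (2 * conj c * deriv h 0 * s ^ 2).re + δ * ‖s‖ ^ 2 := by
  have hD := (hd 0 (by simp)).hasDerivAt
  have h1 := (hasDerivAt_iff_isLittleO.1 hD).def (c := δ / (4 * (‖c‖ + 1))) (by positivity)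
  have h2 : ∀ᶠ s in 𝓝 (0 : ℂ), ‖h s‖ ^ 2 < δ / 2 :=
    (hD.continuousAt.norm.pow 2).eventually_lt continuousAt_const (by simp [h0, hδ])
  obtain ⟨ε, hε, h3⟩ := Metric.eventually_nhds_iff.1 (h1.and h2)
  refine ⟨ε, hε, fun s hs => ?_⟩
  obtain ⟨h4, h5⟩ := h3 (y := s) (by simpa using hs)
  simp only [h0, sub_zero, smul_eq_mul] at h4
  have e : ‖c + s * h s‖ ^ 2 = ‖c‖ ^ 2 + ‖s‖ ^ 2 * ‖h s‖ ^ 2 + (2 * conj c * deriv h 0 * s ^ 2).re +
      2 * (conj c * s * (h s - s * deriv h 0)).re := by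
    rw [← normSq_eq_norm_sq, add_comm c, normSq_add, normSq_eq_norm_sq, normSq_eq_norm_sq, norm_mul,
      show s * h s * conj c = conj c * deriv h 0 * s ^ 2 + conj c * s * (h s - s * deriv h 0) by
        ring, add_re, mul_assoc 2, mul_assoc 2, show (2 : ℂ) = (2 : ℝ) by simp, re_ofReal_mul]
    ring
  have h6 := re_le_norm (conj c * s * (h s - s * deriv h 0))
  rw [norm_mul, norm_mul, norm_conj] at h6
  have h7 : ‖c‖ * ‖s‖ * ‖h s - s * deriv h 0‖ ≤ δ / 4 * ‖s‖ ^ 2 := by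
    refine (mul_le_mul (mul_le_mul_of_nonneg_right (le_add_of_nonneg_right zero_le_one)
      (norm_nonneg s)) h4 (norm_nonneg _) (by positivity)).trans (le_of_eq ?_)
    field_simp
  rw [e]
  nlinarith [mul_le_mul_of_nonneg_left h5.le (sq_nonneg ‖s‖)]

theorem area_aux {h : ℂ → ℂ} {c : ℂ} (hc : c ≠ 0) (hd : ∀ s, ‖s‖ < 1 → DifferentiableAt ℂ h s)
    (h0 : h 0 = 0) {K : ℝ} (hK : ∀ s, ‖s‖ < 1 → ‖deriv h s‖ ≤ K)
    (hi : InjOn (fun s => c / s + h s) (ball 0 1 \ {0})) {δ : ℝ} (hδ : 0 < δ) :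
    ∫⁻ s in ball (0 : ℂ) 1, ENNReal.ofReal (‖deriv h s‖ ^ 2) ≤
      ENNReal.ofReal (π * ‖c‖ ^ 2 + 3 * π * δ) := by
  obtain ⟨ε, hε, hs⟩ := small (c := c) hd h0 hδ
  have hq : 0 < ‖c‖ := norm_pos_iff.2 hc
  have hK0 : 0 ≤ K := (norm_nonneg _).trans (hK 0 (by simp))
  have hh : ∀ s, ‖s‖ < 1 → ‖h s‖ ≤ K := fun s hs => by
    have := (convex_ball (0 : ℂ) 1).norm_image_sub_le_of_norm_deriv_le (f := h) (C := K)
      (fun z hz => hd z (by simpa using hz)) (fun z hz => hK z (by simpa using hz))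
      (x := 0) (y := s) (by simp) (by simpa using hs)
    rw [h0, sub_zero, sub_zero] at this
    nlinarith
  set a := 2 * conj c * deriv h 0 with ha
  set q := ‖c‖ with hqd
  set B := ‖a‖ with hB
  have hB0 : 0 ≤ B := norm_nonneg _
  obtain ⟨W, hW1, hW2, hW3, hW4⟩ : ∃ W, q ^ 2 < W ∧ (q / ε + K) ^ 2 ≤ W ∧
      4 * q * K * B ≤ δ * W ∧ K ^ 2 * q ^ 2 ≤ δ * W := by
    refine ⟨q ^ 2 + 1 + (q / ε + K) ^ 2 + (4 * q * K * B + K ^ 2 * q ^ 2) / δ, ?_, ?_, ?_, ?_⟩
    · have : 0 ≤ (4 * q * K * B + K ^ 2 * q ^ 2) / δ := by positivity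
      nlinarith [sq_nonneg (q / ε + K)]
    · have : 0 ≤ (4 * q * K * B + K ^ 2 * q ^ 2) / δ := by positivity
      nlinarith
    · rw [mul_add, mul_div_cancel₀ _ hδ.ne']
      have : 0 ≤ δ * (q ^ 2 + 1 + (q / ε + K) ^ 2) := by positivity
      nlinarith [sq_nonneg (K * q)]
    · rw [mul_add, mul_div_cancel₀ _ hδ.ne']
      have : 0 ≤ δ * (q ^ 2 + 1 + (q / ε + K) ^ 2) := by positivity
      have : 0 ≤ 4 * q * K * B := by positivity
      linarith
  have hW : 0 < W := (sq_nonneg q).trans_lt hW1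
  set S := {s : ℂ | ‖s‖ < 1 ∧ q ^ 2 < (W + B) * ‖s‖ ^ 2 - (a * s ^ 2).re} with hS
  have hSm : MeasurableSet S := ell_meas q (W + B) a
  have hre : ∀ s : ℂ, |(a * s ^ 2).re| ≤ B * ‖s‖ ^ 2 := fun s => by
    have := abs_re_le_norm (a * s ^ 2)
    rwa [norm_mul, norm_pow] at this
  set e1 := q / √W with he1
  set e2 := q / √(W + 2 * B) with he2
  have e1p : 0 < e1 := by positivity
  have e2p : 0 < e2 := by positivity
  have e1s : e1 ^ 2 = q ^ 2 / W := by rw [he1, div_pow, Real.sq_sqrt hW.le]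
  have e2s : e2 ^ 2 = q ^ 2 / (W + 2 * B) := by rw [he2, div_pow, Real.sq_sqrt (by positivity)]
  have hS2 : ∀ s ∈ S, e2 < ‖s‖ := fun s hs => by
    refine lt_of_pow_lt_pow_left₀ 2 (norm_nonneg _) ?_
    rw [e2s, div_lt_iff₀ (by positivity)]
    nlinarith [hs.2, (abs_le.1 (hre s)).1]
  have hS0 : ∀ s ∈ S, s ≠ 0 := fun s hs => norm_pos_iff.1 (e2p.trans (hS2 s hs))
  set An := {z : ℂ | ‖z‖ ∈ Ioo e1 1} with hAn
  have hAm : MeasurableSet An := measurable_norm measurableSet_Ioo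
  have hAS : An ⊆ S := fun s hs => ⟨hs.2, by
    have := pow_lt_pow_left₀ hs.1 e1p.le two_ne_zero
    rw [e1s, div_lt_iff₀ hW] at this
    nlinarith [(abs_le.1 (hre s)).2]⟩
  have k1 : ∫⁻ s in S, ENNReal.ofReal (‖-c / s ^ 2 + deriv h s‖ ^ 2) ≤
      ENNReal.ofReal (π * (W + B + δ)) := by
    have := cv hSm (φ := fun s => c / s + h s) (φ' := fun s => -c / s ^ 2 + deriv h s)
      (fun s hs => HasDerivAt.add (((hasDerivAt_inv (hS0 s hs)).const_mul c).congr_deriv
        (by ring)) (hd s hs.1).hasDerivAt)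
      (hi.mono fun s hs => (mem_diff s).2 ⟨by simpa using hs.1, hS0 s hs⟩) fun _ => 1
    simp only [mul_one, lintegral_one, Measure.restrict_apply_univ] at this
    rw [← this, ← Real.sq_sqrt (show 0 ≤ W + B + δ by positivity), ← vol_cb (Real.sqrt_nonneg _)]
    refine measure_mono ?_
    rintro _ ⟨s, hsS, rfl⟩
    have hs0 := norm_pos_iff.2 (hS0 s hsS)
    rw [mem_closedBall_zero_iff]
    refine Real.le_sqrt_of_sq_le ?_
    by_cases hsε : ‖s‖ < ε
    · have e : c / s + h s = (c + s * h s) / s := by field_simp [hS0 s hsS]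
      simp only
      rw [e, norm_div, div_pow, div_le_iff₀ (by positivity)]
      nlinarith [hs s hsε, hsS.2]
    · have : ‖c / s + h s‖ ≤ q / ε + K := (norm_add_le _ _).trans (add_le_add
        (by rw [norm_div]; exact div_le_div_of_nonneg_left hq.le hε (not_lt.1 hsε)) (hh s hsS.1))
      nlinarith [pow_le_pow_left₀ (norm_nonneg _) this 2]
  have k2 := ell (a := a) (V := W + B) hq (by linarith)
  have k3 := orth (measurable_deriv h) (hol_deriv hd) c e1p
  have k4 : ∫⁻ s in S \ An, ENNReal.ofReal (q ^ 2 / ‖s‖ ^ 4) ≤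
      (∫⁻ s in S \ An, ENNReal.ofReal (‖-c / s ^ 2 + deriv h s‖ ^ 2)) +
        ENNReal.ofReal (π * δ) := by
    have m1 : volume (S \ An) ≤ ENNReal.ofReal (π * e1 ^ 2 - π * e2 ^ 2) := by
      rw [ENNReal.ofReal_sub _ (by positivity), ← vol_cb e1p.le, ← vol_cb e2p.le,
        ← measure_diff (closedBall_subset_closedBall ?_) measurableSet_closedBall.nullMeasurableSet
          measure_closedBall_lt_top.ne]
      · refine measure_mono fun s hs => ⟨?_, by simpa using hS2 s hs.1⟩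
        rw [mem_closedBall_zero_iff]
        exact not_lt.1 fun h => hs.2 ⟨h, hs.1.1⟩
      · exact div_le_div_of_nonneg_left hq.le (by positivity) (Real.sqrt_le_sqrt (by linarith))
    calc _ ≤ ∫⁻ s in S \ An, (ENNReal.ofReal (‖-c / s ^ 2 + deriv h s‖ ^ 2) +
          ENNReal.ofReal (2 * q * K / e2 ^ 2)) := by
          refine setLIntegral_mono' (hSm.diff hAm) fun s hs => ?_
          rw [← ENNReal.ofReal_add (by positivity) (by positivity), nsq c s _ (hS0 s hs.1)]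
          refine ENNReal.ofReal_le_ofReal ?_
          have hs0 := norm_pos_iff.2 (hS0 s hs.1)
          have h1 := re_le_norm (conj c * s ^ 2 * deriv h s)
          rw [norm_mul, norm_mul, norm_conj, norm_pow] at h1
          have h2 : 2 / ‖s‖ ^ 4 * (conj c * s ^ 2 * deriv h s).re ≤ 2 * q * K / ‖s‖ ^ 2 := by
            refine (mul_le_mul_of_nonneg_left (h1.trans (mul_le_mul_of_nonneg_left (hK s hs.1.1)
              (by positivity))) (by positivity)).trans (le_of_eq ?_)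
            field_simp
            exact mul_comm _ _
          have h3 : 2 * q * K / ‖s‖ ^ 2 ≤ 2 * q * K / e2 ^ 2 := div_le_div_of_nonneg_left
            (by positivity) (by positivity) (pow_le_pow_left₀ e2p.le (hS2 s hs.1).le 2)
          nlinarith [sq_nonneg ‖deriv h s‖]
      _ ≤ _ := by
          rw [lintegral_add_right _ measurable_const, setLIntegral_const]
          refine add_le_add le_rfl ((mul_le_mul_right m1 _).trans ?_)
          rw [← ENNReal.ofReal_mul (by positivity)]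
          refine ENNReal.ofReal_le_ofReal ?_
          have e : 2 * q * K / e2 ^ 2 * (π * e1 ^ 2 - π * e2 ^ 2) = π * (4 * q * K * B / W) := by
            rw [e1s, e2s]
            field_simp
            ring
          rw [e]
          exact mul_le_mul_of_nonneg_left ((div_le_iff₀ hW).2 hW3) pi_pos.le
  have k5 : ∫⁻ s in ball (0 : ℂ) 1 \ An, ENNReal.ofReal (‖deriv h s‖ ^ 2) ≤
      ENNReal.ofReal (π * δ) := by
    calc _ ≤ ∫⁻ _ in ball (0 : ℂ) 1 \ An, ENNReal.ofReal (K ^ 2) :=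
          setLIntegral_mono' (measurableSet_ball.diff hAm) fun s hs => ENNReal.ofReal_le_ofReal
            (pow_le_pow_left₀ (norm_nonneg _) (hK s (by simpa using hs.1)) 2)
      _ ≤ ENNReal.ofReal (K ^ 2) * volume (closedBall (0 : ℂ) e1) := by
          rw [setLIntegral_const]
          refine mul_le_mul_right (measure_mono fun s hs => ?_) _
          rw [mem_closedBall_zero_iff]
          exact not_lt.1 fun h => hs.2 ⟨h, by simpa using hs.1⟩
      _ ≤ _ := by
          rw [vol_cb e1p.le, ← ENNReal.ofReal_mul (by positivity), e1s]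
          refine ENNReal.ofReal_le_ofReal ?_
          rw [mul_left_comm, ← mul_div_assoc]
          exact mul_le_mul_of_nonneg_left ((div_le_iff₀ hW).2 hW4) pi_pos.le
  have k6 : ∫⁻ s in An, ENNReal.ofReal (q ^ 2 / ‖s‖ ^ 4 + ‖deriv h s‖ ^ 2) =
      (∫⁻ s in An, ENNReal.ofReal (q ^ 2 / ‖s‖ ^ 4)) +
        ∫⁻ s in An, ENNReal.ofReal (‖deriv h s‖ ^ 2) := by
    rw [← lintegral_add_left (by fun_prop)]
    exact lintegral_congr fun s => ENNReal.ofReal_add (by positivity) (by positivity)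
  have sp : ∀ {T : Set ℂ} (F : ℂ → ℝ≥0∞), An ⊆ T → ∫⁻ s in T, F s = (∫⁻ s in An, F s) +
      ∫⁻ s in T \ An, F s := fun {T} F hT => by
    rw [← lintegral_inter_add_diff F T hAm, inter_eq_self_of_subset_right hT]
  have k7 : ENNReal.ofReal (π * (W + B - q ^ 2)) + ∫⁻ s in An, ENNReal.ofReal (‖deriv h s‖ ^ 2) ≤
      ENNReal.ofReal (π * (W + B - q ^ 2)) + ENNReal.ofReal (π * q ^ 2 + 2 * π * δ) := by
    have hp : 0 ≤ π * (W + B - q ^ 2) := mul_nonneg pi_pos.le (by linarith)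
    calc _ = (∫⁻ s in An, ENNReal.ofReal (‖-c / s ^ 2 + deriv h s‖ ^ 2)) +
          ∫⁻ s in S \ An, ENNReal.ofReal (q ^ 2 / ‖s‖ ^ 4) := by
          rw [← k2, sp _ hAS, k3, k6, add_right_comm]
      _ ≤ ENNReal.ofReal (π * (W + B + δ)) + ENNReal.ofReal (π * δ) := by
          refine (add_le_add le_rfl k4).trans ?_
          rw [← add_assoc, ← sp _ hAS]
          exact add_le_add k1 le_rfl
      _ = _ := by
          rw [← ENNReal.ofReal_add (by positivity) (by positivity),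
            ← ENNReal.ofReal_add hp (by positivity)]
          congr 1
          ring
  rw [sp _ (T := ball 0 1) fun s hs => by simpa using hs.2,
    show π * q ^ 2 + 3 * π * δ = π * q ^ 2 + 2 * π * δ + π * δ by ring,
    ENNReal.ofReal_add (by positivity) (by positivity)]
  exact add_le_add ((ENNReal.add_le_add_iff_left ENNReal.ofReal_ne_top).1 k7) k5

theorem area {h : ℂ → ℂ} {c : ℂ} (hc : c ≠ 0) (hd : ∀ s, ‖s‖ < 1 → DifferentiableAt ℂ h s)
    (h0 : h 0 = 0) {K : ℝ} (hK : ∀ s, ‖s‖ < 1 → ‖deriv h s‖ ≤ K)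
    (hi : InjOn (fun s => c / s + h s) (ball 0 1 \ {0})) :
    ∫⁻ s in ball (0 : ℂ) 1, ENNReal.ofReal (‖deriv h s‖ ^ 2) ≤ ENNReal.ofReal (π * ‖c‖ ^ 2) := by
  refine ENNReal.le_of_forall_pos_le_add fun δ hδ _ => ?_
  refine (area_aux hc hd h0 hK hi (δ := δ / (3 * π)) (by positivity)).trans (le_of_eq ?_)
  rw [mul_div_cancel₀ _ (by positivity), ENNReal.ofReal_add (by positivity) δ.coe_nonneg,
    ENNReal.ofReal_coe_nnreal]

end Vale.Agent.P142
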