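import Mathlib

/-! Laurent coefficients as circle averages. -/

open Complex Real Metric Set MeasureTheory Finset

namespace Vale.Agent.P142

noncomputable def cf (u : ℂ → ℂ) (r : ℝ) (n : ℤ) : ℂ :=
  circleAverage (fun z => z ^ (-n) * u z) 0 r

theorem ne0 {r : ℝ} (hr : 0 < r) {z : ℂ} (hz : z ∈ sphere (0 : ℂ) r) : z ≠ 0 := by
  rintro rfl
  simp at hz
  exact hr.ne hz

theorem cf_int {u : ℂ → ℂ} {r : ℝ} (hr : 0 < r) (hu : ContinuousOn u (sphere 0 r)) (n : ℤ) :
    CircleIntegrable (fun z => z ^ (-n) * u z) 0 r :=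
  ((continuousOn_id.zpow₀ _ fun _ hz => Or.inl (ne0 hr hz)).mul hu).circleIntegrable hr.le

theorem cf_congr {u u' : ℂ → ℂ} {r : ℝ} (hr : 0 < r) (h : ∀ z, ‖z‖ = r → u z = u' z) (n : ℤ) :
    cf u r n = cf u' r n :=
  circleAverage_congr_sphere fun z hz => by
    rw [abs_of_pos hr] at hz
    simp only [h z (by simpa using hz)]

theorem cf_add {u u' : ℂ → ℂ} {r : ℝ} (hr : 0 < r) (hu : ContinuousOn u (sphere 0 r))
    (hu' : ContinuousOn u' (sphere 0 r)) (n : ℤ) :
    cf (fun z => u z + u' z) r n = cf u r n + cf u' r n := by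
  simp only [cf, mul_add]
  exact circleAverage_fun_add (cf_int hr hu n) (cf_int hr hu' n)

theorem cf_mul (a : ℂ) (u : ℂ → ℂ) (r : ℝ) (n : ℤ) : cf (fun z => a * u z) r n = a * cf u r n := by
  simp only [cf, mul_left_comm _ a]
  exact circleAverage_fun_smul (a := a)

theorem cf_ann {u : ℂ → ℂ} {r R : ℝ} (hr : 0 < r) (h : r ≤ R)
    (hu : ∀ z, r ≤ ‖z‖ → ‖z‖ ≤ R → DifferentiableAt ℂ u z) (n : ℤ) : cf u R n = cf u r n := by
  have key : ∀ z, r ≤ ‖z‖ → ‖z‖ ≤ R → DifferentiableAt ℂ (fun z => z ^ (-n) * u z) z :=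
    fun z h1 h2 => (differentiableAt_zpow.2 (Or.inl (norm_pos_iff.1 (hr.trans_le h1)))).mul
      (hu z h1 h2)
  rw [cf, cf, circleAverage_eq_circleIntegral hr.ne', circleAverage_eq_circleIntegral
    (hr.trans_le h).ne', circleIntegral_sub_center_inv_smul_eq_of_differentiable_on_annulus_off_countable
    hr h countable_empty]
  · exact fun z hz => (key z (by simpa using hz.2) (by simpa using hz.1)).continuousAt.continuousWithinAt
  · exact fun z hz => key z (le_of_lt (by simpa using hz.1.2)) (le_of_lt (by simpa using hz.1.1))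

theorem avg_hol {u : ℂ → ℂ} {r : ℝ} (hr : 0 < r) (hu : ∀ z, ‖z‖ ≤ r → DifferentiableAt ℂ u z) :
    circleAverage u 0 r = u 0 := by
  refine circleAverage_of_differentiable_on_off_countable countable_empty ?_ ?_
  · rw [abs_of_pos hr]
    exact fun z hz => (hu z (by simpa using hz)).continuousAt.continuousWithinAt
  · rw [abs_of_pos hr]
    exact fun z hz => hu z (le_of_lt (by simpa using hz.1))

theorem cf_neg {u : ℂ → ℂ} {r : ℝ} (hr : 0 < r) (hu : ∀ z, ‖z‖ ≤ r → DifferentiableAt ℂ u z)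
    (m : ℕ) : cf u r (-(m + 1)) = 0 := by
  have : cf u r (-(m + 1)) = circleAverage (fun z => z ^ (m + 1) * u z) 0 r := by
    rw [cf, neg_neg]
    norm_cast
  rw [this, avg_hol (u := fun z => z ^ (m + 1) * u z) hr
    fun z hz => (differentiableAt_pow _).mul (hu z hz)]
  simp

theorem pars {u : ℂ → ℂ} {r : ℝ} (hr : 0 < r) (hu : ContinuousOn u (sphere 0 r)) :
    HasSum (fun n : ℤ => ‖cf u r n‖ ^ 2 * (r ^ 2) ^ n)
      (circleAverage (fun z => ‖u z‖ ^ 2) 0 r) := by
  have hc : Continuous fun θ => u (circleMap 0 r θ) :=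
    hu.comp_continuous (continuous_circleMap 0 r) fun θ => circleMap_mem_sphere 0 hr.le θ
  have hp : (0 : ℝ) < 2 * π := by positivity
  have hL : MemLp (fun θ => u (circleMap 0 r θ)) 2 (volume.restrict (Ioc 0 (2 * π))) := by
    obtain ⟨C, hC⟩ := (isCompact_sphere (0 : ℂ) r).exists_bound_of_continuousOn hu
    exact MemLp.of_bound hc.aestronglyMeasurable C
      (.of_forall fun θ => hC _ (circleMap_mem_sphere 0 hr.le θ))
  have h := hasSum_sq_fourierCoeffOn hp hL
  rw [sub_zero] at h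
  have e : ∀ n : ℤ, fourierCoeffOn hp (fun θ => u (circleMap 0 r θ)) n = (r : ℂ) ^ n * cf u r n := by
    intro n
    rw [fourierCoeffOn_eq_integral, cf, circleAverage, real_smul, real_smul, mul_left_comm,
      ← intervalIntegral.integral_const_mul ((r : ℂ) ^ n), sub_zero, one_div]
    refine congrArg _ (intervalIntegral.integral_congr fun θ _ => ?_)
    have hr' : (r : ℂ) ≠ 0 := by exact_mod_cast hr.ne'
    have hpi : (π : ℂ) ≠ 0 := by exact_mod_cast pi_ne_zero
    rw [fourier_coe_apply, smul_eq_mul, ← mul_assoc, circleMap_zero, mul_zpow, ← mul_assoc,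
      ← zpow_add₀ hr', add_neg_cancel, zpow_zero, one_mul, ← Complex.exp_int_mul]
    congr 2
    push_cast
    field_simp
  have e2 : (fun n : ℤ => ‖cf u r n‖ ^ 2 * (r ^ 2) ^ n) =
      fun n => ‖fourierCoeffOn hp (fun θ => u (circleMap 0 r θ)) n‖ ^ 2 := by
    funext n
    rw [e, norm_mul, norm_zpow, norm_real, Real.norm_of_nonneg hr.le, mul_pow, mul_comm, sq r,
      mul_zpow, sq (r ^ n)]
  rw [e2]
  exact h

theorem bessel {u : ℂ → ℂ} {r : ℝ} (hr : 0 < r) (hu : ContinuousOn u (sphere 0 r)) (K : ℕ) :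
    ∑ k ∈ range K, ‖cf u r k‖ ^ 2 * (r ^ 2) ^ k ≤ circleAverage (fun z => ‖u z‖ ^ 2) 0 r := by
  have := sum_le_hasSum ((range K).map Nat.castEmbedding) (fun n _ => by positivity) (pars hr hu)
  simpa using this

theorem pars_nat {u : ℂ → ℂ} {r : ℝ} (hr : 0 < r) (hu : ∀ z, ‖z‖ ≤ r → DifferentiableAt ℂ u z) :
    HasSum (fun n : ℕ => ‖cf u r n‖ ^ 2 * (r ^ 2) ^ n)
      (circleAverage (fun z => ‖u z‖ ^ 2) 0 r) := by
  have := (pars hr fun z hz =>
    (hu z (le_of_eq (by simpa using hz))).continuousAt.continuousWithinAt).nat_add_neg_add_one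
  simpa only [cf_neg hr hu, norm_zero, zpow_natCast, ne_eq, OfNat.ofNat_ne_zero, not_false_eq_true,
    zero_pow, zero_mul, add_zero] using this

theorem cf_deriv {u : ℂ → ℂ} {r : ℝ} (hr : 0 < r) (hu : ∀ z, ‖z‖ = r → DifferentiableAt ℂ u z)
    (hu' : ContinuousOn (deriv u) (sphere 0 r)) (n : ℤ) :
    cf (deriv u) r n = (n + 1) * cf u r (n + 1) := by
  have hc : ContinuousOn u (sphere 0 r) := fun z hz =>
    (hu z (by simpa using hz)).continuousAt.continuousWithinAt
  have h0 := circleIntegral.integral_eq_zero_of_hasDerivWithinAt (c := 0) hr.le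
    (f := fun z => z ^ (-(n + 1)) * u z)
    (f' := fun z => (z - 0)⁻¹ • (z ^ (-n) * deriv u z - (n + 1) * (z ^ (-(n + 1)) * u z)))
    fun z hz => by
      have hz0 := ne0 hr hz
      refine (((hasDerivAt_zpow (-(n + 1)) z (Or.inl hz0)).mul
        (hu z (by simpa using hz)).hasDerivAt).congr_deriv ?_).hasDerivWithinAt
      rw [zpow_sub_one₀ hz0, show -n = -(n + 1) + 1 by ring, zpow_add_one₀ hz0]
      push_cast
      simp only [sub_zero, smul_eq_mul]
      field_simp
      ring
  have h1 : circleAverage (fun z => z ^ (-n) * deriv u z - (n + 1) * (z ^ (-(n + 1)) * u z)) 0 r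
      = 0 := by rw [circleAverage_eq_circleIntegral hr.ne', h0, smul_zero]
  rw [circleAverage_fun_sub (f₂ := fun z => (n + 1) * (z ^ (-(n + 1)) * u z)) (cf_int hr hu' n)
    ((cf_int hr hc (n + 1)).const_smul (a := (n + 1 : ℂ))), sub_eq_zero] at h1
  exact h1.trans (circleAverage_fun_smul (a := (n + 1 : ℂ)))

theorem cf_one {r : ℝ} (hr : 0 < r) (n : ℤ) : cf (fun _ => 1) r n = if n = 0 then 1 else 0 := by
  split_ifs with h
  · simp [cf, h, circleAverage_const]
  · have := cf_deriv (u := fun _ => 1) hr (fun _ _ => differentiableAt_const _)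
      (by simpa using continuousOn_const) (n - 1)
    have h0 : cf (deriv fun _ => (1 : ℂ)) r (n - 1) = 0 := by simp [cf, circleAverage_const]
    rw [h0, sub_add_cancel] at this
    push_cast at this
    rw [sub_add_cancel] at this
    exact (mul_eq_zero.1 this.symm).resolve_left (by exact_mod_cast h)

theorem inv_cont {r : ℝ} {w : ℂ} (h : ‖w‖ ≠ r) :
    ContinuousOn (fun z : ℂ => (z - w)⁻¹) (sphere 0 r) :=
  (continuousOn_id.sub continuousOn_const).inv₀ fun z hz (e : z - w = 0) => h (by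
    rw [← sub_eq_zero.1 e]; simpa using hz)

theorem cf_rec {r : ℝ} (hr : 0 < r) {w : ℂ} (h : ‖w‖ ≠ r) (n : ℤ) :
    cf (fun z => (z - w)⁻¹) r (n - 1) =
      cf (fun _ => 1) r n + w * cf (fun z => (z - w)⁻¹) r n := by
  rw [← cf_mul, ← cf_add (u' := fun z => w * (z - w)⁻¹) hr continuousOn_const
    (continuousOn_const.mul (inv_cont h))]
  refine circleAverage_congr_sphere fun z hz => ?_
  rw [abs_of_pos hr] at hz
  have h1 : z - w ≠ 0 := fun e => h (by rw [← sub_eq_zero.1 e]; simpa using hz)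
  simp only
  rw [show -(n - 1) = -n + 1 by ring, zpow_add_one₀ (ne0 hr hz)]
  field_simp
  ring

theorem cf_big {r : ℝ} {w : ℂ} (h0 : w ≠ 0) (h : ‖w‖ < r) (j : ℕ) :
    cf (fun z => (z - w)⁻¹) r j = 0 := by
  have hr := (norm_nonneg w).trans_lt h
  induction j with
  | zero =>
    have h1 := cf_rec hr h.ne 0
    have h2 : cf (fun z => (z - w)⁻¹) r (0 - 1) = 1 := by
      have := circleAverage_sub_sub_inv_smul_of_differentiable_on_off_countable (c := 0) (R := r)
        (f := fun _ => (1 : ℂ)) (w := w) countable_empty continuousOn_const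
        (fun _ _ => differentiableAt_const _) (by simpa [abs_of_pos hr] using h)
      simpa [cf, div_eq_mul_inv] using this
    rw [h2] at h1
    simpa [cf_one hr, h0] using h1
  | succ j ih =>
    have h1 := cf_rec hr h.ne (j + 1)
    rw [add_sub_cancel_right, ih, cf_one hr, if_neg (by omega), zero_add] at h1
    exact (mul_eq_zero.1 h1.symm).resolve_left h0

theorem cf_small {r : ℝ} (hr : 0 < r) {w : ℂ} (h : r < ‖w‖) (j : ℕ) :
    cf (fun z => (z - w)⁻¹) r j = -w ^ (-(j + 1 : ℤ)) := by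
  have h0 : w ≠ 0 := norm_pos_iff.1 (hr.trans h)
  induction j with
  | zero =>
    have := avg_hol (u := fun z => (z - w)⁻¹) hr fun z hz =>
      (differentiableAt_id.sub_const w).inv (sub_ne_zero.2 fun e => by
        rw [← e] at h; exact absurd hz (not_le.2 h))
    simpa [cf] using this
  | succ j ih =>
    have h1 := cf_rec hr h.ne' (j + 1)
    rw [add_sub_cancel_right, ih, cf_one hr, if_neg (by omega), zero_add] at h1
    push_cast
    rw [show -((j : ℤ) + 1 + 1) = -(j + 1) - 1 by ring, zpow_sub_one₀ h0, ← neg_mul, h1]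
    field_simp

theorem cf_swap {A : ℂ → ℂ → ℂ} {s r : ℝ} (hs : 0 < s) (hr : 0 < r)
    (hA : ContinuousOn (fun p : ℂ × ℂ => A p.1 p.2) (sphere 0 s ×ˢ sphere 0 r)) (j k : ℤ) :
    cf (fun z => cf (A z) r k) s j = cf (fun w => cf (fun z => A z w) s j) r k := by
  have hc : Continuous fun p : ℝ × ℝ => circleMap 0 s p.1 ^ (-j) * (circleMap 0 r p.2 ^ (-k) *
      A (circleMap 0 s p.1) (circleMap 0 r p.2)) := by
    refine (((continuous_circleMap 0 s).comp continuous_fst).zpow₀ _ fun p => Or.inl ?_).mul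
      ((((continuous_circleMap 0 r).comp continuous_snd).zpow₀ _ fun p => Or.inl ?_).mul
      (hA.comp_continuous (f := fun p : ℝ × ℝ => (circleMap 0 s p.1, circleMap 0 r p.2))
        (by fun_prop) fun p => ⟨circleMap_mem_sphere 0 hs.le _, circleMap_mem_sphere 0 hr.le _⟩))
    · exact circleMap_ne_center hs.ne'
    · exact circleMap_ne_center hr.ne'
  have := intervalIntegral_intervalIntegral_swap (a := 0) (b := 2 * π) (c := 0) (d := 2 * π)
    (F := fun x y => circleMap 0 s x ^ (-j) * (circleMap 0 r y ^ (-k) *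
      A (circleMap 0 s x) (circleMap 0 r y)))
    ((hc.continuousOn.integrableOn_compact (isCompact_uIcc.prod isCompact_uIcc)).mono_set
      (prod_mono uIoc_subset_uIcc uIoc_subset_uIcc))
  simp only [cf, circleAverage, real_smul, mul_left_comm _ (((2 * π)⁻¹ : ℝ) : ℂ),
    intervalIntegral.integral_const_mul]
  congr 2
  simp only [← intervalIntegral.integral_const_mul]
  rw [this]
  simp only [mul_left_comm]

theorem cf_cont {A : ℂ → ℂ → ℂ} {s r : ℝ} (hs : 0 < s)
    (hA : ContinuousOn (fun p : ℂ × ℂ => A p.1 p.2) (sphere 0 s ×ˢ sphere 0 r)) (j : ℤ) :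
    ContinuousOn (fun w => cf (fun z => A z w) s j) (sphere 0 r) := by
  rw [continuousOn_iff_continuous_restrict]
  refine Continuous.const_smul (intervalIntegral.continuous_parametric_intervalIntegral_of_continuous'
    (f := fun (w : sphere (0 : ℂ) r) θ => circleMap 0 s θ ^ (-j) * A (circleMap 0 s θ) w) ?_ _ _) _
  exact (((continuous_circleMap 0 s).comp continuous_snd).zpow₀ _ fun p =>
    Or.inl (circleMap_ne_center hs.ne')).mul
    (hA.comp_continuous (f := fun p : sphere (0 : ℂ) r × ℝ => (circleMap 0 s p.2, (p.1 : ℂ)))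
      (by fun_prop) fun p => ⟨circleMap_mem_sphere 0 hs.le _, p.1.2⟩)

end Vale.Agent.P142
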