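import Vale.Agent.P142.Area2

/-! The column bound for the kernel `1 / (f z - f w)`. -/

open Complex Real Metric Set MeasureTheory Filter Topology
open scoped ENNReal ComplexConjugate

namespace Vale.Agent.P142

theorem dne {f : ℂ → ℂ} {U : Set ℂ} {w : ℂ} (hU : U ∈ 𝓝 w) (hf : AnalyticAt ℂ f w)
    (hi : InjOn f U) : deriv f w ≠ 0 := by
  intro h0
  have ha : AnalyticAt ℂ (fun z => f z - f w) w := hf.sub analyticAt_const
  have hw := mem_of_mem_nhds hU
  have hne : ¬∀ᶠ z in 𝓝 w, f z - f w = 0 := fun h => by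
    have h1 : ∀ᶠ z in 𝓝[≠] w, z = w := ((h.and hU).mono fun z hz =>
      hi hz.2 hw (sub_eq_zero.1 hz.1)).filter_mono nhdsWithin_le_nhds
    obtain ⟨z, h2, h3⟩ := (h1.and self_mem_nhdsWithin).exists
    exact h3 h2
  obtain ⟨n, g, hg, hg0, he⟩ := ha.exists_eventuallyEq_pow_smul_nonzero_iff.2 hne
  have hn : 2 ≤ n := by
    rcases n with _ | _ | n
    · exact absurd (by simpa using he.self_of_nhds.symm) hg0
    · have h1 := ((hasDerivAt_id w).sub_const w).mul hg.differentiableAt.hasDerivAt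
      have h2 := (hf.differentiableAt.hasDerivAt.sub_const (f w)).unique
        (h1.congr_of_eventuallyEq (he.mono fun z hz => by simpa using hz))
      exact absurd (by simpa [h0] using h2.symm) hg0
    · omega
  have hn0 : n ≠ 0 := by omega
  let k : ℂ → ℂ := fun z => (z - w) * (g z / g w) ^ ((n : ℂ)⁻¹)
  have hp : AnalyticAt ℂ (fun z => (g z / g w) ^ ((n : ℂ)⁻¹)) w :=
    (hg.div_const).cpow analyticAt_const (by simp [div_self hg0])
  have hk : HasStrictDerivAt k 1 w := by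
    have := HasStrictDerivAt.mul (c := fun z => z - w) ((hasStrictDerivAt_id w).sub_const w)
      hp.hasStrictDerivAt
    exact this.congr_deriv (by simp [div_self hg0])
  have hm := hk.map_nhds_eq one_ne_zero
  have hV : k '' {z | z ∈ U ∧ f z - f w = (z - w) ^ n • g z} ∈ 𝓝 (0 : ℂ) := by
    have : k w = 0 := by simp [k]
    rw [← this, ← hm]
    exact image_mem_map (Filter.Eventually.and hU he)
  obtain ⟨ε, hε, hb⟩ := Metric.mem_nhds_iff.1 hV
  have hω := Complex.isPrimitiveRoot_exp n hn0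
  set ω := Complex.exp (2 * π * I / n)
  have hω1 : ‖ω‖ = 1 := hω.norm'_eq_one hn0
  obtain ⟨z, hz, e1⟩ := hb (show ((ε / 2 : ℝ) : ℂ) ∈ ball 0 ε by simp [abs_of_pos hε, hε])
  obtain ⟨z', hz', e2⟩ := hb (show ((ε / 2 : ℝ) : ℂ) * ω ∈ ball 0 ε by
    simp [abs_of_pos hε, hε, hω1])
  have hkn : ∀ y, (y - w) ^ n • g y = k y ^ n * g w := fun y => by
    simp only [k, mul_pow, cpow_nat_inv_pow _ hn0, smul_eq_mul]
    field_simp
  have e3 : f z = f z' := by
    have : f z - f w = f z' - f w := by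
      rw [hz.2, hz'.2, hkn, hkn, e1, e2, mul_pow, hω.pow_eq_one, mul_one]
    exact sub_left_injective this
  rw [hi hz.1 hz'.1 e3, e2] at e1
  refine hω.ne_one hn ((mul_eq_left₀ ?_).1 e1)
  exact_mod_cast (half_pos hε).ne'

theorem dir {g : ℂ → ℂ} {R : ℝ} (hR : 1 < R) (hg : ∀ z, ‖z‖ < R → DifferentiableAt ℂ g z) (J : ℕ) :
    ENNReal.ofReal (π * ∑ j ∈ Finset.range J, (j + 1) * ‖cf g 1 (j + 1)‖ ^ 2) ≤
      ∫⁻ z in ball (0 : ℂ) 1, ENNReal.ofReal (‖deriv g z‖ ^ 2) := by
  have hc : ∀ t ∈ Ioo (0 : ℝ) 1, ContinuousOn (deriv g) (sphere 0 t) := fun t ht z hz =>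
    (hol_deriv hg z (by rw [show ‖z‖ = t by simpa using hz]; linarith [ht.2])).continuousAt.continuousWithinAt
  refine le_trans ?_ (lintegral_mono_set (s := {z : ℂ | ‖z‖ ∈ Ioo 0 1})
    fun z hz => by simpa using hz.2)
  rw [ann (g := fun z => ‖deriv g z‖ ^ 2) (by fun_prop) measurableSet_Ioo Ioo_subset_Ioi_self
    (fun t ht => (hc t ht).norm.pow 2) fun z => by positivity]
  have e : ∫ t in (0 : ℝ)..1, ∑ j ∈ Finset.range J,
      2 * π * ((j + 1) ^ 2 * ‖cf g 1 (j + 1)‖ ^ 2) * t ^ (2 * j + 1) =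
      π * ∑ j ∈ Finset.range J, (j + 1) * ‖cf g 1 (j + 1)‖ ^ 2 := by
    rw [intervalIntegral.integral_finset_sum fun j _ => Continuous.intervalIntegrable
      (by fun_prop) _ _, Finset.mul_sum]
    refine Finset.sum_congr rfl fun j _ => ?_
    rw [intervalIntegral.integral_const_mul, integral_pow]
    push_cast
    field_simp
    ring
  rw [← e, intervalIntegral.integral_of_le zero_le_one, integral_Ioc_eq_integral_Ioo,
    ofReal_integral_eq_lintegral_ofReal]
  · refine setLIntegral_mono' measurableSet_Ioo fun t ht => ENNReal.ofReal_le_ofReal ?_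
    have := mul_le_mul_of_nonneg_left (bessel ht.1 (hc t ht) J)
      (mul_pos ht.1 two_pi_pos).le
    rw [Finset.mul_sum, mul_assoc] at this
    refine le_trans (le_of_eq (Finset.sum_congr rfl fun j _ => ?_)) this
    rw [cf_deriv ht.1 (fun z hz => hg z (by linarith [ht.2])) (hc t ht),
      ← cf_ann ht.1 ht.2.le fun z _ hz => hg z (by linarith), norm_mul]
    have : ‖((j : ℤ) : ℂ) + 1‖ = j + 1 := by
      exact_mod_cast Complex.norm_natCast (j + 1)
    rw [this]
    ring
  · exact ((Continuous.continuousOn (by fun_prop)).integrableOn_compact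
      isCompact_Icc).mono_set Ioo_subset_Icc_self
  · exact (ae_restrict_iff' measurableSet_Ioo).2 (.of_forall fun t ht => Finset.sum_nonneg
      fun j _ => by have := ht.1; positivity)

/-- a univalent function on a disc of radius larger than one -/
structure Un (f : ℂ → ℂ) (R : ℝ) : Prop where
  lt : 1 < R
  d : ∀ z, ‖z‖ < R → DifferentiableAt ℂ f z
  i : InjOn f (ball 0 R)

noncomputable def Rw (f : ℂ → ℂ) (w : ℂ) : ℂ → ℂ := dslope (fun z => (dslope f w z)⁻¹) w

namespace Un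
variable {f : ℂ → ℂ} {R : ℝ} (H : Un f R)
include H

theorem on : DifferentiableOn ℂ f (ball 0 R) :=
  fun z hz => (H.d z (by simpa using hz)).differentiableWithinAt

theorem ne {w : ℂ} (hw : ‖w‖ < R) : deriv f w ≠ 0 :=
  have := isOpen_ball.mem_nhds (mem_ball_zero_iff.2 hw)
  dne this (H.on.analyticAt this) H.i

theorem sub {z w : ℂ} (hz : ‖z‖ < R) (hw : ‖w‖ < R) (h : z ≠ w) : f z - f w ≠ 0 :=
  sub_ne_zero.2 fun e => h (H.i (by simpa using hz) (by simpa using hw) e)

theorem v_d (w : ℂ) (hw : ‖w‖ < R) : DifferentiableAt ℂ (fun z => (deriv f z)⁻¹) w :=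
  (hol_deriv H.d w hw).inv (H.ne hw)

theorem rw_d {w : ℂ} (hw : ‖w‖ < R) (z : ℂ) (hz : ‖z‖ < R) : DifferentiableAt ℂ (Rw f w) z := by
  have h1 := isOpen_ball.mem_nhds (mem_ball_zero_iff.2 hw)
  refine ((differentiableOn_dslope h1).2 (((differentiableOn_dslope h1).2 H.on).inv
    fun y hy => ?_)).differentiableAt (isOpen_ball.mem_nhds (mem_ball_zero_iff.2 hz))
  rcases eq_or_ne y w with rfl | h
  · simpa using H.ne hw
  · rw [dslope_of_ne _ h, slope_def_field]
    exact div_ne_zero (H.sub (by simpa using hy) hw h) (sub_ne_zero.2 h)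

omit H in
theorem rw_eq {z w : ℂ} (h : z ≠ w) :
    (f z - f w)⁻¹ = Rw f w z + (deriv f w)⁻¹ * (z - w)⁻¹ := by
  have := sub_ne_zero.2 h
  rw [Rw, dslope_of_ne _ h, slope_def_field, dslope_of_ne _ h, slope_def_field, dslope_same,
    inv_div]
  field_simp
  ring

theorem col {w : ℂ} (hw : ‖w‖ < 1) (J : ℕ) :
    ∑ j ∈ Finset.range J, (j + 1) * ‖cf (Rw f w) 1 (j + 1)‖ ^ 2 ≤
      ‖(deriv f w)⁻¹‖ ^ 2 / (1 - ‖w‖ ^ 2) ^ 2 := by
  have hR := H.lt
  have hwR := hw.trans hR
  have hm : 0 < 1 - ‖w‖ ^ 2 := by nlinarith [norm_nonneg w]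
  have hm' : (1 : ℂ) - conj w * w ≠ 0 := by
    rw [← normSq_eq_conj_mul_self, normSq_eq_norm_sq]
    exact_mod_cast hm.ne'
  have hmn : ‖(1 : ℂ) - conj w * w‖ = 1 - ‖w‖ ^ 2 := by
    rw [← normSq_eq_conj_mul_self, normSq_eq_norm_sq]
    exact_mod_cast abs_of_pos hm
  have hden : ∀ u s : ℂ, ‖u‖ = ‖w‖ → ‖s‖ < 1 → 1 - ‖w‖ ≤ ‖1 + conj u * s‖ := fun u s hu hs => by
    have := norm_sub_norm_le (1 : ℂ) (-(conj u * s))
    rw [norm_one, norm_neg, norm_mul, norm_conj, sub_neg_eq_add, hu] at this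
    nlinarith [norm_nonneg w]
  have hd0 : ∀ u s : ℂ, ‖u‖ = ‖w‖ → ‖s‖ < 1 → 1 + conj u * s ≠ 0 := fun u s hu hs =>
    norm_pos_iff.1 ((sub_pos.2 hw).trans_le (hden u s hu hs))
  have hin : ∀ u s : ℂ, ‖u‖ = ‖w‖ → ‖s‖ < 1 → ‖(s + u) / (1 + conj u * s)‖ < 1 :=
    fun u s hu hs => by
      rw [norm_div, div_lt_one (norm_pos_iff.2 (hd0 u s hu hs)), ← sq_lt_sq₀ (norm_nonneg _)
        (norm_nonneg _), ← normSq_eq_norm_sq, ← normSq_eq_norm_sq, normSq_add, normSq_add,
        normSq_mul, normSq_conj, normSq_eq_norm_sq s, normSq_eq_norm_sq u, hu, normSq_one]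
      have e : (1 * conj (conj u * s)).re = (s * conj u).re := by simp [mul_comm]
      have : 0 < 1 - ‖s‖ ^ 2 := by nlinarith [norm_nonneg s]
      nlinarith [mul_pos hm this]
  let m : ℂ → ℂ := fun s => (s + w) / (1 + conj w * s)
  have hmd : ∀ s, ‖s‖ < 1 → HasDerivAt m ((1 - conj w * w) / (1 + conj w * s) ^ 2) s :=
    fun s hs => ((((hasDerivAt_id s).add_const w).div (((hasDerivAt_id s).const_mul
      (conj w)).const_add 1) (hd0 w s rfl hs))).congr_deriv (by simp only [id]; ring)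
  have hmi : InjOn m (ball 0 1) := fun s hs s' hs' e => by
    have h1 := hd0 w s rfl (by simpa using hs)
    have h2 := hd0 w s' rfl (by simpa using hs')
    rw [div_eq_div_iff h1 h2] at e
    refine sub_eq_zero.1 ((mul_eq_zero.1 (?_ : (1 - conj w * w) * (s - s') = 0)).resolve_left hm')
    linear_combination e
  have hms : ball (0 : ℂ) 1 ⊆ m '' ball 0 1 := fun z hz => by
    have hz' : ‖z‖ < 1 := by simpa using hz
    refine ⟨(z + -w) / (1 + conj (-w) * z), by simpa using hin (-w) z (norm_neg w) hz', ?_⟩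
    have h1 := hd0 (-w) z (norm_neg w) hz'
    have h2 := hd0 w _ rfl (hin (-w) z (norm_neg w) hz')
    simp only [m]
    rw [div_eq_iff h2]
    rw [map_neg] at h1 ⊢
    have h3 := div_mul_cancel₀ (z + -w) h1
    linear_combination h3
  have hh : ∀ s, ‖s‖ < 1 → HasDerivAt (fun s => Rw f w (m s) - Rw f w w)
      (deriv (Rw f w) (m s) * ((1 - conj w * w) / (1 + conj w * s) ^ 2)) s := fun s hs =>
    ((H.rw_d hwR _ ((hin w s rfl hs).trans hR)).hasDerivAt.comp s (hmd s hs)).sub_const _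
  obtain ⟨K, hK⟩ := (isCompact_closedBall (0 : ℂ) 1).exists_bound_of_continuousOn
    (f := deriv (Rw f w)) fun z hz => (hol_deriv (H.rw_d hwR) z
      (lt_of_le_of_lt (by simpa using hz) hR)).continuousAt.continuousWithinAt
  have hA := area (c := (deriv f w)⁻¹ / (1 - conj w * w)) (h := fun s => Rw f w (m s) - Rw f w w)
    (div_ne_zero (inv_ne_zero (H.ne hwR)) hm') (fun s hs => (hh s hs).differentiableAt)
    (by simp [m]) (K := K * ((1 - ‖w‖ ^ 2) / (1 - ‖w‖) ^ 2)) (fun s hs => by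
      rw [(hh s hs).deriv, norm_mul, norm_div, hmn, norm_pow]
      have h1 := hK (m s) (mem_closedBall_zero_iff.2 (hin w s rfl hs).le)
      exact mul_le_mul h1 (div_le_div_of_nonneg_left hm.le (pow_pos (sub_pos.2 hw) 2)
        (pow_le_pow_left₀ (sub_pos.2 hw).le (hden w s rfl hs) 2)) (by positivity)
        ((norm_nonneg _).trans h1)) (by
      have key : ∀ s ∈ ball (0 : ℂ) 1 \ {0}, (deriv f w)⁻¹ / (1 - conj w * w) / s +
          (Rw f w (m s) - Rw f w w) = (f (m s) - f w)⁻¹ -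
            ((deriv f w)⁻¹ / (1 - conj w * w) * conj w + Rw f w w) := fun s hs => by
        have h0 : s ≠ 0 := hs.2
        have h1 := hd0 w s rfl (by simpa using hs.1)
        have e : m s - w = s * (1 - conj w * w) / (1 + conj w * s) := by
          simp only [m]
          rw [div_sub' h1]
          congr 1
          ring
        rw [rw_eq (sub_ne_zero.1 (e ▸ div_ne_zero (mul_ne_zero h0 hm') h1)), e]
        field_simp
        ring
      intro s hs s' hs' e
      simp only [key s hs, key s' hs', sub_left_inj, inv_inj] at e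
      exact hmi hs.1 hs'.1 (H.i (mem_ball_zero_iff.2 ((hin w s rfl (by simpa using hs.1)).trans hR))
        (mem_ball_zero_iff.2 ((hin w s' rfl (by simpa using hs'.1)).trans hR)) e))
  have h2 := (dir hR (H.rw_d hwR) J).trans (lintegral_mono_set hms)
  rw [cv measurableSet_ball (fun s hs => hmd s (by simpa using hs)) hmi] at h2
  have h3 := h2.trans ((setLIntegral_congr_fun measurableSet_ball fun s hs => ?_).trans_le hA)
  · rw [ENNReal.ofReal_le_ofReal_iff (by positivity), norm_div, hmn, div_pow] at h3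
    exact le_of_mul_le_mul_left h3 pi_pos
  · rw [(hh s (by simpa using hs)).deriv, ← ENNReal.ofReal_mul (by positivity), norm_mul, mul_pow,
      mul_comm]

end Un

end Vale.Agent.P142
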