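import Vale.Agent.P142.Seq

/-! The closed inequality for the coefficient sequence. -/

open Real Set MeasureTheory Filter Topology Finset

namespace Vale.Agent.P142

theorem gi {a c : ℝ} (ha : 0 < a) (hc : 0 < c) :
    IntegrableOn (fun t : ℝ => t ^ (a - 1) * exp (-(c * t))) (Ioi 0) :=
  .of_integral_ne_zero (by
    rw [integral_rpow_mul_exp_neg_mul_Ioi ha hc]
    have := Gamma_pos_of_pos ha
    positivity)

theorem stepA {b : ℕ → ℕ → ℝ} {a : ℕ → ℝ} {T β : ℝ} {N K : ℕ} (hβ : 0 < β) (ha : ∀ n, 0 ≤ a n)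
    (hT : 0 ≤ T) (h : ∀ x, 0 < x → x < 1 → ∑ j ∈ range N, ∑ k ∈ range N, b j k * x ^ k ≤
      (∑ n ∈ range K, a n * x ^ n + T) / (1 - x) ^ 2) :
    (β + 1) * β * ∑ j ∈ range N, ∑ k ∈ range N, b j k * (1 / ((k : ℝ) + 3)) ^ (β + 2) ≤
      ∑ n ∈ range K, a n * (1 / ((n : ℝ) + 1)) ^ β + T := by
  have hG := Gamma_pos_of_pos hβ
  have hG2 : Gamma (β + 2) = (β + 1) * β * Gamma β := by
    rw [show β + 2 = β + 1 + 1 by ring, Gamma_add_one (by linarith), Gamma_add_one hβ.ne', mul_assoc]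
  have i1 : ∀ j k : ℕ, IntegrableOn
      (fun t : ℝ => b j k * (t ^ (β + 2 - 1) * exp (-(((k : ℝ) + 3) * t)))) (Ioi 0) :=
    fun j k => (gi (by linarith) (by positivity)).const_mul _
  have i2 : ∀ n : ℕ, IntegrableOn
      (fun t : ℝ => a n * (t ^ (β - 1) * exp (-(((n : ℝ) + 1) * t)))) (Ioi 0) :=
    fun n => (gi hβ (by positivity)).const_mul _
  have i3 : IntegrableOn (fun t : ℝ => T * (t ^ (β - 1) * exp (-(1 * t)))) (Ioi 0) :=
    (gi hβ one_pos).const_mul _
  have key := setIntegral_mono_on (integrable_finset_sum (range N) fun j _ =>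
    integrable_finset_sum (range N) fun k _ => i1 j k)
    ((integrable_finset_sum (range K) fun n _ => i2 n).add i3) measurableSet_Ioi fun t ht => ?_
  · simp only [Pi.add_apply] at key
    rw [integral_add (integrable_finset_sum (range K) fun n _ => i2 n) i3,
      integral_finset_sum _ fun n _ => i2 n, integral_finset_sum _ fun j _ =>
        integrable_finset_sum (range N) fun k _ => i1 j k, integral_const_mul,
      integral_rpow_mul_exp_neg_mul_Ioi hβ one_pos] at key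
    have e1 : ∀ j ∈ range N, ∫ t in Ioi (0 : ℝ), ∑ k ∈ range N,
        b j k * (t ^ (β + 2 - 1) * exp (-(((k : ℝ) + 3) * t))) =
        ((β + 1) * β * ∑ k ∈ range N, b j k * (1 / ((k : ℝ) + 3)) ^ (β + 2)) * Gamma β := by
      intro j _
      rw [integral_finset_sum _ fun k _ => i1 j k, mul_sum, sum_mul]
      refine sum_congr rfl fun k _ => ?_
      rw [integral_const_mul, integral_rpow_mul_exp_neg_mul_Ioi (by linarith) (by positivity), hG2]
      ring
    have e2 : ∀ n ∈ range K, ∫ t in Ioi (0 : ℝ), a n * (t ^ (β - 1) * exp (-(((n : ℝ) + 1) * t))) =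
        a n * (1 / ((n : ℝ) + 1)) ^ β * Gamma β := fun n _ => by
      rw [integral_const_mul, integral_rpow_mul_exp_neg_mul_Ioi hβ (by positivity), mul_assoc]
    rw [sum_congr rfl e1, sum_congr rfl e2, ← sum_mul, ← sum_mul, ← mul_sum] at key
    refine le_of_mul_le_mul_right (key.trans_eq ?_) hG
    rw [div_one, one_rpow]
    ring
  · have t0 : (0 : ℝ) < t := ht
    have x0 := exp_pos (-t)
    have x1 : exp (-t) < 1 := exp_lt_one_iff.2 (by linarith)
    have ex : ∀ n : ℕ, exp (-(n * t)) = exp (-t) ^ n := fun n => by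
      rw [← exp_nat_mul, mul_neg]
    have e3 : ∀ k : ℕ, exp (-(((k : ℝ) + 3) * t)) = exp (-t) ^ (k + 3) := fun k => by
      rw [← ex]; push_cast; rfl
    have e4 : ∀ k : ℕ, exp (-(((k : ℝ) + 1) * t)) = exp (-t) ^ (k + 1) := fun k => by
      rw [← ex]; push_cast; rfl
    have e5 : t ^ (β + 2 - 1) = t ^ (β - 1) * t ^ 2 := by
      rw [← rpow_two, ← rpow_add t0]; ring_nf
    have tx : t * exp (-t) ≤ 1 - exp (-t) := by
      have := add_one_le_exp t
      have e : exp t * exp (-t) = 1 := by rw [← exp_add]; simp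
      nlinarith
    have := h _ x0 x1
    simp only [Pi.add_apply, e3, e4, e5, one_mul]
    generalize exp (-t) = x at *
    have P0 : 0 < t ^ (β - 1) := by positivity
    generalize t ^ (β - 1) = P at *
    have A0 : 0 ≤ ∑ n ∈ range K, a n * x ^ n + T :=
      add_nonneg (sum_nonneg fun n _ => mul_nonneg (ha n) (by positivity)) hT
    calc _ = P * x * ((t * x) ^ 2 * ∑ j ∈ range N, ∑ k ∈ range N, b j k * x ^ k) := by
          simp only [mul_sum]
          exact sum_congr rfl fun j _ => sum_congr rfl fun k _ => by ring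
      _ ≤ P * x * ((1 - x) ^ 2 * ((∑ n ∈ range K, a n * x ^ n + T) / (1 - x) ^ 2)) := by
          refine mul_le_mul_of_nonneg_left ((mul_le_mul_of_nonneg_left this (by positivity)).trans
            (mul_le_mul_of_nonneg_right ?_ (by positivity))) (by positivity)
          gcongr
      _ = _ := by
          rw [mul_div_cancel₀ _ (by have : 0 < 1 - x := by linarith
                                    positivity), mul_add, mul_sum, mul_comm _ T]
          congr 1
          exact sum_congr rfl fun n _ => by ring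

theorem pair (j k : ℕ) (x y : ℂ) :
    (j * k : ℝ) / (((j : ℝ) + 3) ^ (413 / 100 : ℝ) + ((k : ℝ) + 3) ^ (413 / 100 : ℝ)) * ‖x + y‖ ^ 2 ≤
      j * ‖x‖ ^ 2 * (1 / ((k : ℝ) + 3)) ^ (113 / 100 + 2 : ℝ) +
      k * ‖y‖ ^ 2 * (1 / ((j : ℝ) + 3)) ^ (113 / 100 + 2 : ℝ) := by
  have e : ∀ k : ℕ, k / ((k : ℝ) + 3) ^ (413 / 100 : ℝ) ≤
      (1 / ((k : ℝ) + 3)) ^ (113 / 100 + 2 : ℝ) := fun k => by
    have k0 : 0 < (k : ℝ) + 3 := by positivity
    rw [show (413 / 100 : ℝ) = (113 / 100 + 2) + 1 by norm_num, rpow_add_one k0.ne', one_div,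
      inv_rpow k0.le, mul_comm, ← div_div, div_eq_mul_inv]
    exact mul_le_of_le_one_left (by positivity) ((div_le_one k0).2 (by linarith))
  have A0 : 0 < ((j : ℝ) + 3) ^ (413 / 100 : ℝ) := by positivity
  have B0 : 0 < ((k : ℝ) + 3) ^ (413 / 100 : ℝ) := by positivity
  have ej := e j
  have ek := e k
  generalize ((j : ℝ) + 3) ^ (413 / 100 : ℝ) = A at *
  generalize ((k : ℝ) + 3) ^ (413 / 100 : ℝ) = B at *
  have h : ‖x + y‖ ^ 2 / (A + B) ≤ ‖x‖ ^ 2 / B + ‖y‖ ^ 2 / A := by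
    refine le_trans (div_le_div_of_nonneg_right (pow_le_pow_left₀ (norm_nonneg _)
      (norm_add_le x y) 2) (by positivity)) ?_
    rw [div_add_div _ _ B0.ne' A0.ne', div_le_div_iff₀ (by positivity) (by positivity)]
    nlinarith [sq_nonneg (‖x‖ * A - ‖y‖ * B)]
  calc _ = (j * k : ℝ) * (‖x + y‖ ^ 2 / (A + B)) := by ring
    _ ≤ (j * k : ℝ) * (‖x‖ ^ 2 / B + ‖y‖ ^ 2 / A) := by gcongr
    _ = j * ‖x‖ ^ 2 * (k / B) + k * ‖y‖ ^ 2 * (j / A) := by ring
    _ ≤ _ := by gcongr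

theorem stepB {R : ℕ → ℕ → ℂ} {v : ℕ → ℂ} (hs : ∀ j k, R j k + R k j = v (j + k + 1)) (N : ℕ) :
    ∑ m ∈ range N, SS m * ‖v (m + 1)‖ ^ 2 ≤ 2 * ∑ j ∈ range N, ∑ k ∈ range N,
      ((j : ℝ) + 1) * ‖R (j + 1) k‖ ^ 2 * (1 / ((k : ℝ) + 3)) ^ (113 / 100 + 2 : ℝ) := by
  set F : ℕ → ℕ → ℝ := fun j k => j * ‖R j k‖ ^ 2 * (1 / ((k : ℝ) + 3)) ^ (113 / 100 + 2 : ℝ)
    with hF
  have F0 : ∀ j k, 0 ≤ F j k := fun j k => by positivity
  calc _ ≤ ∑ m ∈ range N, 2 * ∑ j ∈ range (m + 1), F j (m - j) := by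
        refine sum_le_sum fun m _ => ?_
        have e : ∑ j ∈ range (m + 1), F j (m - j) = ∑ j ∈ range (m + 1), F (m - j) j := by
          rw [← sum_flip]
          exact sum_congr rfl fun j hj => by
            rw [Nat.sub_sub_self (Nat.lt_succ_iff.1 (mem_range.1 hj))]
        rw [two_mul]
        nth_rewrite 2 [e]
        rw [← sum_add_distrib, SS, sum_mul]
        refine sum_le_sum fun j hj => ?_
        have := pair j (m - j) (R j (m - j)) (R (m - j) j)
        rwa [hs, Nat.add_sub_cancel' (Nat.lt_succ_iff.1 (mem_range.1 hj))] at this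
    _ ≤ 2 * ∑ j ∈ range (N + 1), ∑ k ∈ range N, F j k := by
        rw [← mul_sum, sum_range_diag_flip, sum_range_succ]
        refine mul_le_mul_of_nonneg_left (le_add_of_le_of_nonneg (sum_le_sum fun j _ =>
          sum_le_sum_of_subset_of_nonneg (range_subset_range.2 (Nat.sub_le _ _))
            fun k _ _ => F0 j k) (sum_nonneg fun k _ => F0 N k)) (by norm_num)
    _ = _ := by
        rw [sum_range_succ']
        simp [hF]

theorem supw {x : ℝ} (h0 : 0 < x) (h1 : x < 1) (n : ℕ) :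
    x ^ n ≤ 2 * exp 1 * (1 - x) ^ (-(113 / 100) : ℝ) * (1 / ((n : ℝ) + 1)) ^ (113 / 100 : ℝ) := by
  have d0 : 0 < 1 - x := by linarith
  have n0 : 0 < (n : ℝ) + 1 := by positivity
  have u0 : 0 < (1 - x) * ((n : ℝ) + 1) := by positivity
  have a1 : x ^ n ≤ exp (-(1 - x)) ^ n := by
    gcongr
    linarith [add_one_le_exp (-(1 - x))]
  have a2 : ∀ u : ℝ, 0 < u → u ^ (113 / 100 : ℝ) ≤ 2 * exp u := fun u hu => by
    have := quadratic_le_exp_of_nonneg hu.le
    rcases le_total u 1 with h | h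
    · have := rpow_le_one hu.le h (show (0 : ℝ) ≤ 113 / 100 by norm_num)
      nlinarith
    · have := rpow_le_rpow_of_exponent_le h (show (113 / 100 : ℝ) ≤ 2 by norm_num)
      rw [rpow_two] at this
      nlinarith
  rw [rpow_neg d0.le, one_div, inv_rpow n0.le, mul_assoc, ← mul_inv, ← mul_rpow d0.le n0.le,
    ← div_eq_mul_inv, le_div_iff₀ (by positivity)]
  calc _ ≤ exp (-(1 - x)) ^ n * (2 * exp ((1 - x) * ((n : ℝ) + 1))) := by
        gcongr
        exact a2 _ u0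
    _ = 2 * exp (1 - x) := by
        rw [← exp_nat_mul, mul_left_comm, ← exp_add]
        ring_nf
    _ ≤ _ := by gcongr; linarith

theorem seqmain : ∃ C : ℝ, 0 ≤ C ∧ ∀ (R : ℕ → ℕ → ℂ) (v : ℕ → ℂ) (M : ℝ → ℝ),
    (∀ j k, R j k + R k j = v (j + k + 1)) →
    (∀ x, 0 < x → x ≤ 1 → HasSum (fun n => ‖v n‖ ^ 2 * x ^ n) (M x)) →
    (∀ x, 0 < x → x < 1 → ∀ N, ∑ j ∈ range N, ∑ k ∈ range N,
      ((j : ℝ) + 1) * ‖R (j + 1) k‖ ^ 2 * x ^ k ≤ M x / (1 - x) ^ 2) →
    ∀ x, 0 < x → x < 1 → M x ≤ C * M (1 / 4) * (1 - x) ^ (-(113 / 100) : ℝ) := by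
  obtain ⟨N0, hN⟩ := SS_ge
  refine ⟨2 * exp 1 * (400 * 4 ^ N0), by positivity, fun R v M hs hM hA x x0 x1 => ?_⟩
  set w : ℕ → ℝ := fun n => (1 / ((n : ℝ) + 1)) ^ (113 / 100 : ℝ) with hw
  have w1 : ∀ n, w n ≤ 1 := fun n => rpow_le_one (by positivity)
    ((div_le_one (by positivity)).2 (by linarith [n.cast_nonneg (α := ℝ)])) (by norm_num)
  have hM1 := hM 1 one_pos le_rfl
  simp only [one_pow, mul_one] at hM1
  have hT : ∀ K, 0 ≤ M 1 - ∑ n ∈ range K, ‖v n‖ ^ 2 := fun K =>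
    sub_nonneg.2 (sum_le_hasSum _ (fun _ _ => by positivity) hM1)
  have hH : ∑ n ∈ range (N0 + 1), ‖v n‖ ^ 2 ≤ 4 ^ N0 * M (1 / 4) := by
    refine le_trans ?_ (mul_le_mul_of_nonneg_left (sum_le_hasSum (range (N0 + 1))
      (fun _ _ => by positivity) (hM (1 / 4) (by norm_num) (by norm_num))) (by positivity))
    rw [mul_sum]
    refine sum_le_sum fun n hn => ?_
    rw [mul_left_comm, one_div, inv_pow, ← div_eq_mul_inv]
    refine le_mul_of_one_le_right (by positivity) ((one_le_div (by positivity)).2 ?_)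
    exact pow_le_pow_right₀ (by norm_num) (Nat.lt_succ_iff.1 (mem_range.1 hn))
  have hY : ∀ N, ∑ n ∈ range (N + 1), ‖v n‖ ^ 2 * w n ≤ 400 * 4 ^ N0 * M (1 / 4) +
      400 * (M 1 - ∑ n ∈ range (N + 1), ‖v n‖ ^ 2) := fun N => by
    have a := stepA (b := fun j k => ((j : ℝ) + 1) * ‖R (j + 1) k‖ ^ 2) (β := 113 / 100) (N := N)
      (K := N + 1) (by norm_num) (fun n => sq_nonneg ‖v n‖) (hT (N + 1)) fun y y0 y1 =>
        (hA y y0 y1 N).trans (div_le_div_of_nonneg_right (by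
          have := sum_le_hasSum (range (N + 1)) (fun n _ => sub_nonneg.2 (mul_le_of_le_one_right
            (sq_nonneg ‖v n‖) (pow_le_one₀ y0.le y1.le))) (hM1.sub (hM y y0 y1.le))
          rw [sum_sub_distrib] at this
          linarith) (sq_nonneg _))
    have b := stepB hs N
    have c : ∑ m ∈ range N, 417 / 500 * (‖v (m + 1)‖ ^ 2 * w (m + 1)) ≤
        ∑ m ∈ range N, SS m * ‖v (m + 1)‖ ^ 2 +
          417 / 500 * ∑ m ∈ range N0, ‖v (m + 1)‖ ^ 2 := by
      have : ∑ m ∈ range N, (if m ∈ range N0 then ‖v (m + 1)‖ ^ 2 else 0) ≤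
          ∑ m ∈ range N0, ‖v (m + 1)‖ ^ 2 := by
        rw [sum_ite_mem]
        exact sum_le_sum_of_subset_of_nonneg inter_subset_right fun _ _ _ => by positivity
      refine le_trans ?_ (add_le_add le_rfl (mul_le_mul_of_nonneg_left this (by norm_num)))
      rw [mul_sum, ← sum_add_distrib]
      refine sum_le_sum fun m _ => ?_
      have s0 := mul_nonneg (SS_nn m) (sq_nonneg ‖v (m + 1)‖)
      split_ifs with h
      · nlinarith [mul_le_of_le_one_right (sq_nonneg ‖v (m + 1)‖) (w1 (m + 1))]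
      · nlinarith [mul_le_mul_of_nonneg_right (hN m (by simpa using h)) (sq_nonneg ‖v (m + 1)‖)]
    have d := mul_le_of_le_one_right (sq_nonneg ‖v 0‖) (w1 0)
    have t := hT (N + 1)
    have p : 0 ≤ ∑ m ∈ range N0, ‖v (m + 1)‖ ^ 2 := sum_nonneg fun _ _ => by positivity
    rw [← mul_sum] at c
    rw [sum_range_succ'] at hH
    change _ ≤ ∑ n ∈ range (N + 1), ‖v n‖ ^ 2 * w n + _ at a
    rw [sum_range_succ' (fun n => ‖v n‖ ^ 2 * w n)] at a ⊢
    nlinarith [sq_nonneg ‖v 0‖]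
  have D0 : 0 ≤ 2 * exp 1 * (1 - x) ^ (-(113 / 100) : ℝ) := by
    have : 0 < 1 - x := by linarith
    positivity
  have l1 := (hM x x0 x1.le).tendsto_sum_nat.comp (tendsto_add_atTop_nat 1)
  have l2 := (((hM1.tendsto_sum_nat.comp (tendsto_add_atTop_nat 1)).const_sub (M 1)).const_mul
    400 |>.const_add (400 * 4 ^ N0 * M (1 / 4))).const_mul (2 * exp 1 * (1 - x) ^ (-(113 / 100) : ℝ))
  refine (le_of_tendsto_of_tendsto' l1 l2 fun N => ?_).trans_eq (by ring)
  refine le_trans ?_ (mul_le_mul_of_nonneg_left (hY N) D0)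
  rw [mul_sum]
  exact sum_le_sum fun n _ => (mul_le_mul_of_nonneg_left (supw x0 x1 n) (sq_nonneg _)).trans_eq
    (by ring)

end Vale.Agent.P142
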