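import Vale.Agent.P142.Sym
import Vale.Agent.P142.Seq2

/-! Growth of the integral means of the reciprocal derivative. -/

open Complex Real Metric Set MeasureTheory Filter Topology

namespace Vale.Agent.P142

noncomputable def MM (f : ℂ → ℂ) (r : ℝ) : ℝ :=
  circleAverage (fun z => ‖(deriv f z)⁻¹‖ ^ 2) 0 r

theorem unM : ∃ C : ℝ, 0 ≤ C ∧ ∀ f R, Un f R → ∀ r, 0 < r → r < 1 →
    MM f r ≤ C * MM f (1 / 2) * (1 - r) ^ (-(113 / 100) : ℝ) := by
  obtain ⟨C, C0, hC⟩ := seqmain
  refine ⟨C, C0, fun f R H r r0 r1 => ?_⟩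
  have := hC (fun j k => TT f 1 (1 / 2) j k) (vc f) (fun x => MM f (√x)) H.sym
    (fun x x0 x1 => by
      have := H.vsum (sqrt_pos.2 x0) (sqrt_le_one.2 x1)
      rwa [sq_sqrt x0.le] at this)
    (fun x x0 x1 N => by
      have := H.avg (sqrt_pos.2 x0) ((sqrt_lt' one_pos).2 (by simpa using x1)) N
      rwa [sq_sqrt x0.le] at this) (r ^ 2) (by positivity) (by nlinarith)
  rw [sqrt_sq r0.le, show (1 / 4 : ℝ) = (1 / 2) ^ 2 by norm_num, sqrt_sq (by norm_num)] at this
  refine this.trans (mul_le_mul_of_nonneg_left (rpow_le_rpow_of_nonpos (by linarith) (by nlinarith)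
    (by norm_num)) (mul_nonneg C0 (circleAverage_nonneg_of_nonneg fun _ _ => by positivity)))

variable {f : ℂ → ℂ} (hd : DifferentiableOn ℂ f (ball 0 1)) (hi : InjOn f (ball 0 1))
include hd hi

theorem d_ne {w : ℂ} (hw : ‖w‖ < 1) : deriv f w ≠ 0 :=
  have := isOpen_ball.mem_nhds (mem_ball_zero_iff.2 hw)
  dne this (hd.analyticAt this) hi

omit hi in
theorem d_c : ContinuousOn (deriv f) (ball 0 1) := (hd.deriv isOpen_ball).continuousOn

theorem n_c : ContinuousOn (fun z => ‖(deriv f z)⁻¹‖ ^ 2) (ball 0 1) :=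
  ((d_c hd).inv₀ fun _ hz => d_ne hd hi (mem_ball_zero_iff.1 hz)).norm.pow 2

theorem mainM : ∃ C : ℝ, 0 < C ∧ ∀ r, 0 < r → r < 1 →
    MM f r ≤ C * (1 - r) ^ (-(113 / 100) : ℝ) := by
  obtain ⟨C, C0, hC⟩ := unM
  obtain ⟨K, hK⟩ := (isCompact_closedBall (0 : ℂ) (1 / 2)).exists_bound_of_continuousOn
    ((n_c hd hi).mono (closedBall_subset_ball (by norm_num)))
  have K0 : 0 ≤ K := (norm_nonneg _).trans (hK 0 (by simp))
  refine ⟨C * K * (1 / 2 : ℝ) ^ (-(113 / 100) : ℝ) + 1, by positivity, fun r r0 r1 => ?_⟩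
  obtain ⟨ρ, hρ⟩ : ∃ ρ : ℝ, ρ = (1 + r) / 2 := ⟨_, rfl⟩
  have p0 : 0 < ρ := by linarith
  have p1 : ρ < 1 := by linarith
  have hn : ∀ z : ℂ, ‖z‖ < 1 / ρ → (ρ : ℂ) * z ∈ ball (0 : ℂ) 1 := fun z hz => by
    rw [lt_div_iff₀ p0] at hz
    rwa [mem_ball_zero_iff, norm_mul, norm_real, norm_of_nonneg p0.le, mul_comm]
  have H : Un (fun z => f (ρ * z)) (1 / ρ) := ⟨(one_lt_div p0).2 p1, fun z hz =>
    (hd.differentiableAt (isOpen_ball.mem_nhds (hn z hz))).comp z (by fun_prop),
    fun z hz w hw e => mul_left_cancel₀ (ofReal_ne_zero.2 p0.ne')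
      (hi (hn z (by simpa using hz)) (hn w (by simpa using hw)) e)⟩
  have e : ∀ s, MM (fun z => f (ρ * z)) s = (ρ ^ 2)⁻¹ * MM f (ρ * s) := fun s => by
    rw [MM, MM, ← smul_eq_mul, ← circleAverage_fun_smul, circleAverage, circleAverage]
    refine congrArg _ (intervalIntegral.integral_congr fun θ _ => ?_)
    rw [deriv_comp_mul_left, show circleMap 0 (ρ * s) θ = ρ * circleMap 0 s θ by
      simp [circleMap, mul_assoc], smul_eq_mul, smul_eq_mul, mul_inv, norm_mul, mul_pow, norm_inv,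
      norm_real, norm_of_nonneg p0.le, inv_pow]
  have h := hC _ _ H (r / ρ) (by positivity) ((div_lt_one p0).2 (by linarith))
  rw [e, e, mul_div_cancel₀ _ p0.ne', mul_left_comm C, mul_assoc] at h
  have h2 : MM f (ρ * (1 / 2)) ≤ K := by
    refine circleAverage_mono_on_of_le_circle (ContinuousOn.circleIntegrable (by positivity)
      ((n_c hd hi).mono (sphere_subset_ball (by linarith)))) fun z hz => ?_
    refine (le_abs_self _).trans (hK z ?_)
    rw [abs_of_pos (by positivity)] at hz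
    exact sphere_subset_closedBall.trans (closedBall_subset_closedBall (by linarith)) hz
  have d0 : 0 < 1 - r := by linarith
  have h3 : (1 - r / ρ) ^ (-(113 / 100) : ℝ) ≤
      (1 / 2 : ℝ) ^ (-(113 / 100) : ℝ) * (1 - r) ^ (-(113 / 100) : ℝ) := by
    rw [← mul_rpow (by norm_num) d0.le]
    refine rpow_le_rpow_of_nonpos (by positivity) ?_ (by norm_num)
    rw [le_sub_comm, div_le_iff₀ p0]
    nlinarith
  refine (le_of_mul_le_mul_left h (by positivity)).trans ?_
  calc _ ≤ C * K * ((1 / 2 : ℝ) ^ (-(113 / 100) : ℝ) * (1 - r) ^ (-(113 / 100) : ℝ)) := by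
        gcongr
        exact rpow_nonneg (sub_nonneg.2 ((div_le_one p0).2 (by linarith))) _
    _ ≤ _ := by
        rw [add_mul, mul_assoc (C * K)]
        exact le_add_of_nonneg_right (by positivity)

theorem integ {t : ℝ} (h1 : -(200 / 113) < t) (h2 : t ≤ 0) :
    IntegrableOn (fun z => ‖deriv f z‖ ^ t) (ball 0 1) := by
  obtain ⟨C, C0, hC⟩ := mainM hd hi
  have hm : Measurable fun z => ‖deriv f z‖ ^ t := (measurable_deriv f).norm.pow_const t
  have hc : ContinuousOn (fun z => ‖deriv f z‖ ^ t) (ball 0 1) := (d_c hd).norm.rpow_const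
    fun z hz => Or.inl (norm_ne_zero_iff.2 (d_ne hd hi (mem_ball_zero_iff.1 hz)))
  have hs : ball (0 : ℂ) 1 =ᵐ[volume] {z : ℂ | ‖z‖ ∈ Ioo (0 : ℝ) 1} := by
    rw [show {z : ℂ | ‖z‖ ∈ Ioo (0 : ℝ) 1} = ball 0 1 \ {0} by ext z; simp [and_comm]]
    exact (diff_ae_eq_self.2 (measure_mono_null inter_subset_right (measure_singleton _))).symm
  refine ⟨hm.aestronglyMeasurable, ?_⟩
  rw [hasFiniteIntegral_iff_ofReal (Eventually.of_forall fun z => by positivity),
    Measure.restrict_congr_set hs, ann hm measurableSet_Ioo Ioo_subset_Ioi_self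
      (fun r hr => hc.mono (sphere_subset_ball hr.2)) fun z => by positivity]
  have hI : IntegrableOn (fun r : ℝ => 2 * π * (1 + C) * (1 - r) ^ (113 / 200 * t)) (Ioo 0 1) := by
    have := (intervalIntegral.intervalIntegrable_rpow' (a := 1) (b := 0)
      (show -1 < 113 / 200 * t by linarith)).comp_sub_left 1
    rw [sub_self, sub_zero, intervalIntegrable_iff_integrableOn_Ioo_of_le zero_le_one] at this
    exact this.const_mul _
  refine lt_of_le_of_lt (setLIntegral_mono' measurableSet_Ioo fun r hr =>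
    ENNReal.ofReal_le_ofReal ?_) hI.lintegral_lt_top
  have d0 : 0 < 1 - r := by linarith [hr.2]
  have D0 : 0 < (1 - r) ^ (113 / 200 * t) := by positivity
  have E0 : 0 < (1 - r) ^ (113 / 100 : ℝ) := by positivity
  have i2 := ContinuousOn.circleIntegrable hr.1.le ((n_c hd hi).mono (sphere_subset_ball hr.2))
  have a : circleAverage (fun z => ‖deriv f z‖ ^ t) 0 r ≤ (1 + C) * (1 - r) ^ (113 / 200 * t) := by
    calc _ ≤ circleAverage (fun z => (1 - r) ^ (113 / 200 * t) + ((1 - r) ^ (113 / 200 * t) *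
          (1 - r) ^ (113 / 100 : ℝ)) • ‖(deriv f z)⁻¹‖ ^ 2) 0 r := by
          refine circleAverage_mono (ContinuousOn.circleIntegrable hr.1.le
            (hc.mono (sphere_subset_ball hr.2))) ((circleIntegrable_const _ _ _).add
              (i2.const_fun_smul)) fun z _ => ?_
          have e : ‖deriv f z‖ ^ t = (1 - r) ^ (113 / 200 * t) *
              ((1 - r) ^ (113 / 100 : ℝ) * ‖(deriv f z)⁻¹‖ ^ 2) ^ (-t / 2) := by
            rw [mul_rpow E0.le (by positivity), ← rpow_mul d0.le, ← mul_assoc, ← rpow_add d0,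
              ← rpow_two, ← rpow_mul (norm_nonneg _), norm_inv, inv_rpow (norm_nonneg _),
              ← rpow_neg (norm_nonneg _), show 113 / 200 * t + 113 / 100 * (-t / 2) = 0 by ring,
              rpow_zero, one_mul, show -(2 * (-t / 2)) = t by ring]
          rw [e, smul_eq_mul, mul_assoc, ← mul_one_add]
          refine mul_le_mul_of_nonneg_left ?_ D0.le
          have u0 : 0 ≤ (1 - r) ^ (113 / 100 : ℝ) * ‖(deriv f z)⁻¹‖ ^ 2 := by positivity
          generalize (1 - r) ^ (113 / 100 : ℝ) * ‖(deriv f z)⁻¹‖ ^ 2 = u at u0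
          have := rpow_one_add_le_one_add_mul_self (s := u - 1) (by linarith) (p := -t / 2)
            (by linarith) (by linarith)
          rw [add_sub_cancel] at this
          nlinarith
      _ = (1 - r) ^ (113 / 200 * t) * (1 + (1 - r) ^ (113 / 100 : ℝ) * MM f r) := by
          rw [circleAverage_fun_add (circleIntegrable_const _ _ _) i2.const_fun_smul,
            circleAverage_const, circleAverage_fun_smul, smul_eq_mul, MM]
          ring
      _ ≤ _ := by
          rw [mul_comm]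
          have := mul_le_mul_of_nonneg_left (hC r hr.1 hr.2) E0.le
          rw [rpow_neg d0.le, mul_left_comm, mul_inv_cancel₀ E0.ne', mul_one] at this
          gcongr
  have a0 : 0 ≤ circleAverage (fun z => ‖deriv f z‖ ^ t) 0 r :=
    circleAverage_nonneg_of_nonneg fun _ _ => by positivity
  calc _ ≤ 1 * (2 * π * ((1 + C) * (1 - r) ^ (113 / 200 * t))) := by
        gcongr
        exact hr.2.le
    _ = _ := by ring

end Vale.Agent.P142
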