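import Mathlib

/-! Numerical part: a Riemann sum estimate. -/

open Real Set MeasureTheory Filter Topology Finset

namespace Vale.Agent.P142

theorem riem {P : ℝ × ℝ → ℝ} (hP : Continuous P) {c : ℝ} (hc : c < ∫ x in (0 : ℝ)..1, P (0, x)) :
    ∃ N0 : ℕ, 0 < N0 ∧ ∀ m : ℕ, N0 ≤ m → c * m ≤ ∑ j ∈ range m, P (3 / m, j / m) := by
  set I := ∫ x in (0 : ℝ)..1, P (0, x) with hI
  obtain ⟨δ, hδ, hu⟩ := Metric.uniformContinuousOn_iff.1
    ((isCompact_Icc (a := ((0, 0) : ℝ × ℝ)) (b := (1, 1))).uniformContinuousOn_of_continuous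
      hP.continuousOn) (I - c) (by linarith)
  obtain ⟨N, hN⟩ := exists_nat_gt (3 / δ + 3)
  have h3 : 0 < 3 / δ := by positivity
  refine ⟨N, by exact_mod_cast (show (0 : ℝ) < N by linarith), fun m hm => ?_⟩
  have hm' : (N : ℝ) ≤ m := by exact_mod_cast hm
  have m0 : (0 : ℝ) < m := by linarith
  have hd : 3 / (m : ℝ) < δ := by
    rw [div_lt_iff₀ m0]
    have : 3 / δ < m := by linarith
    rw [div_lt_iff₀ hδ] at this
    linarith
  have h1 : 3 / (m : ℝ) ≤ 1 := by rw [div_le_one m0]; linarith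
  have hc0 : Continuous fun x : ℝ => P (0, x) := hP.comp (by fun_prop)
  have key := intervalIntegral.sum_integral_adjacent_intervals (f := fun x : ℝ => P (0, x))
    (μ := volume) (a := fun j : ℕ => (j : ℝ) / m) (n := m) fun k _ => hc0.intervalIntegrable _ _
  simp only [Nat.cast_zero, zero_div, div_self m0.ne'] at key
  have : I ≤ ∑ j ∈ range m, (1 / (m : ℝ)) * (P (3 / m, j / m) + (I - c)) := by
    rw [hI, ← key]
    refine sum_le_sum fun j hj => ?_
    have hj' : (j : ℝ) + 1 ≤ m := by exact_mod_cast mem_range.1 hj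
    have e : (1 / (m : ℝ)) = ((j + 1 : ℕ) : ℝ) / m - j / m := by push_cast; ring
    have j0 : (0 : ℝ) ≤ j / m := by positivity
    have j1 : ((j + 1 : ℕ) : ℝ) / m ≤ 1 := by rw [div_le_one m0]; push_cast; linarith
    have j2 : 0 < 1 / (m : ℝ) := by positivity
    have j3 : 1 / (m : ℝ) ≤ 3 / m := by gcongr; norm_num
    rw [key, ← hI, e, ← smul_eq_mul, ← intervalIntegral.integral_const]
    refine intervalIntegral.integral_mono_on (by linarith) (hc0.intervalIntegrable _ _)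
      (continuous_const.intervalIntegrable _ _) fun x hx => ?_
    have := hu (0, x) ⟨⟨le_rfl, by linarith [hx.1]⟩, ⟨zero_le_one, by linarith [hx.2]⟩⟩
      (3 / m, j / m) ⟨⟨by positivity, j0⟩, ⟨h1, by linarith⟩⟩ (by
        rw [Prod.dist_eq, Real.dist_eq, Real.dist_eq, max_lt_iff, abs_lt, abs_lt]
        refine ⟨⟨?_, ?_⟩, ?_, ?_⟩ <;> simp only <;> linarith [hx.1, hx.2])
    rw [Real.dist_eq, abs_lt] at this
    linarith [this.2]
  rw [← mul_sum, sum_add_distrib, sum_const, card_range, nsmul_eq_mul, one_div,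
    ← div_eq_inv_mul, le_div_iff₀ m0] at this
  nlinarith

noncomputable def hh (z : ℝ) : ℝ := 117 / 125 * z ^ 4 * (87 / 100 + 13 / 60 * z)

theorem tang {z : ℝ} (hz : 0 < z) : z ^ (413 / 100 : ℝ) ≤ hh z := by
  have h1 : ((3 : ℝ) / 5) ^ (13 / 100 : ℝ) ≤ 117 / 125 := by
    refine le_of_pow_le_pow_left₀ (n := 100) (by norm_num) (by norm_num) ?_
    rw [← rpow_natCast, ← rpow_mul (by norm_num), show (13 / 100 : ℝ) * (100 : ℕ) = (13 : ℕ) by
      norm_num, rpow_natCast]
    norm_num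
  have h2 := rpow_one_add_le_one_add_mul_self (s := 5 / 3 * z - 1) (by linarith)
    (p := 13 / 100) (by norm_num) (by norm_num)
  have h3 : z ^ (413 / 100 : ℝ) = z ^ 4 * (((3 : ℝ) / 5) ^ (13 / 100 : ℝ) *
      (1 + (5 / 3 * z - 1)) ^ (13 / 100 : ℝ)) := by
    rw [← mul_rpow (by norm_num) (by linarith), ← rpow_natCast,
      show (3 : ℝ) / 5 * (1 + (5 / 3 * z - 1)) = z by ring, ← rpow_add hz]
    norm_num
  rw [h3, hh, mul_comm (117 / 125 : ℝ), mul_assoc]
  refine mul_le_mul_of_nonneg_left (mul_le_mul h1 (h2.trans_eq (by ring))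
    (rpow_nonneg (by linarith) _) (by norm_num)) (by positivity)

noncomputable def tt (x : ℝ) : ℝ :=
  48 * (x * (1 - x)) - 480 * (x * (1 - x)) ^ 2 + 1680 * (x * (1 - x)) ^ 3

noncomputable def PP (p : ℝ × ℝ) : ℝ :=
  p.2 * (1 - p.2) * (2 * tt p.2 - tt p.2 ^ 2 * (hh (p.2 + p.1) + hh (1 - p.2 + p.1)))

theorem PP_c : Continuous PP := by
  unfold PP tt hh
  fun_prop

noncomputable def cc (i : ℕ) : ℝ := ([0, 0, 96, -10923264 / 3125, 218988288 / 3125, -2660889984 / 3125, 4253347392 / 625,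
  -117683407104 / 3125, 467122737696 / 3125, -54548926848 / 125, 2981088983808 / 3125,
  -987935809536 / 625, 1249283063808 / 625, -1205695580544 / 625, 879663238272 / 625,
  -94632475392 / 125, 7120661184 / 25, -8390910528 / 125, 932323392 / 125] : List ℝ).getD i 0

theorem PP_i : 417 / 500 < ∫ x in (0 : ℝ)..1, PP (0, x) := by
  have : ∀ x, PP (0, x) = ∑ i ∈ range 19, cc i * x ^ i := fun x => by
    simp only [PP, tt, hh, cc, sum_range_succ, sum_range_zero, List.getD_cons_succ,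
      List.getD_cons_zero]
    ring
  simp only [this]
  rw [intervalIntegral.integral_finset_sum fun i _ => (by fun_prop : Continuous
    fun x : ℝ => cc i * x ^ i).intervalIntegrable _ _]
  simp only [intervalIntegral.integral_const_mul, integral_pow, cc, sum_range_succ, sum_range_zero,
    List.getD_cons_succ, List.getD_cons_zero]
  norm_num

noncomputable def SS (m : ℕ) : ℝ := ∑ j ∈ range (m + 1),
  (j * (m - j : ℕ) : ℝ) / (((j : ℝ) + 3) ^ (413 / 100 : ℝ) + (((m - j : ℕ) : ℝ) + 3) ^ (413 / 100 : ℝ))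

theorem SS_nn (m : ℕ) : 0 ≤ SS m := sum_nonneg fun _ _ => by positivity

theorem SS_ge : ∃ N0 : ℕ, ∀ m : ℕ, N0 ≤ m →
    417 / 500 * (1 / (((m + 1 : ℕ) : ℝ) + 1)) ^ (113 / 100 : ℝ) ≤ SS m := by
  obtain ⟨N0, h0, hN⟩ := riem PP_c PP_i
  refine ⟨N0, fun m hm => ?_⟩
  have m0 : (0 : ℝ) < m := by exact_mod_cast h0.trans_le hm
  have mp : 0 < (m : ℝ) ^ (413 / 100 : ℝ) := by positivity
  have h1 : (1 / (((m + 1 : ℕ) : ℝ) + 1)) ^ (113 / 100 : ℝ) ≤
      m * ((m : ℝ) ^ 2 / (m : ℝ) ^ (413 / 100 : ℝ)) := by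
    have : (m : ℝ) ^ (413 / 100 : ℝ) = m ^ 3 * (m : ℝ) ^ (113 / 100 : ℝ) := by
      rw [← rpow_natCast, ← rpow_add m0]
      norm_num
    rw [this, show m * ((m : ℝ) ^ 2 / (m ^ 3 * (m : ℝ) ^ (113 / 100 : ℝ))) =
      ((m : ℝ) ^ (113 / 100 : ℝ))⁻¹ by field_simp, ← inv_rpow m0.le, ← one_div]
    gcongr
    push_cast
    linarith
  calc _ ≤ 417 / 500 * m * ((m : ℝ) ^ 2 / (m : ℝ) ^ (413 / 100 : ℝ)) := by
        rw [mul_assoc]; gcongr
    _ ≤ (∑ j ∈ range m, PP (3 / m, j / m)) * ((m : ℝ) ^ 2 / (m : ℝ) ^ (413 / 100 : ℝ)) := by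
        gcongr; exact hN m hm
    _ ≤ SS m := by
        rw [SS, sum_range_succ, sum_mul]
        refine le_add_of_le_of_nonneg (sum_le_sum fun j hj => ?_) (by positivity)
        have hj' : j ≤ m := (mem_range.1 hj).le
        have j1 : (j : ℝ) / m ≤ 1 := by rw [div_le_one m0]; exact_mod_cast hj'
        have j0 : (0 : ℝ) ≤ j / m := by positivity
        have e0 : (0 : ℝ) < 3 / m := by positivity
        rw [Nat.cast_sub hj']
        set x : ℝ := j / m with hx
        have a1 : (j : ℝ) + 3 = m * (x + 3 / m) := by rw [hx]; field_simp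
        have a2 : (m : ℝ) - j + 3 = m * (1 - x + 3 / m) := by rw [hx]; field_simp
        have a3 : (j : ℝ) * (m - j) = m ^ 2 * (x * (1 - x)) := by rw [hx]; field_simp
        have b1 : 0 < x + 3 / m := by linarith
        have b2 : 0 < 1 - x + 3 / m := by linarith
        rw [a1, a2, a3, mul_rpow m0.le b1.le, mul_rpow m0.le b2.le, ← mul_add, mul_div_mul_comm,
          mul_comm]
        refine mul_le_mul_of_nonneg_left ?_ (by positivity)
        have q0 : 0 < (x + 3 / m) ^ (413 / 100 : ℝ) + (1 - x + 3 / m) ^ (413 / 100 : ℝ) := by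
          positivity
        have q1 := add_le_add (tang b1) (tang b2)
        rw [PP]
        simp only
        generalize (x + 3 / m) ^ (413 / 100 : ℝ) + (1 - x + 3 / m) ^ (413 / 100 : ℝ) = q at q0 q1
        generalize hh (x + 3 / m) + hh (1 - x + 3 / m) = Q at q1
        rw [div_eq_mul_inv _ q]
        refine mul_le_mul_of_nonneg_left ?_ (mul_nonneg j0 (by linarith))
        rw [← one_div, le_div_iff₀ q0]
        nlinarith [sq_nonneg (tt x * q - 1), mul_le_mul_of_nonneg_left q1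
          (mul_nonneg (sq_nonneg (tt x)) q0.le)]

end Vale.Agent.P142
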