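import Vale.Agent.P142.Gr

/-! The coefficient matrix of the kernel and its averaged bound. -/

open Complex Real Metric Set MeasureTheory Filter Topology

namespace Vale.Agent.P142

noncomputable def TT (f : ℂ → ℂ) (s r : ℝ) (j k : ℤ) : ℂ :=
  cf (fun z => cf (fun w => (f z - f w)⁻¹) r k) s j

noncomputable def vc (f : ℂ → ℂ) (n : ℕ) : ℂ := cf (fun z => (deriv f z)⁻¹) 1 n

namespace Un
variable {f : ℂ → ℂ} {R : ℝ} (H : Un f R)
include H

theorem cont {s r : ℝ} (hs : s ≤ 1) (hr : r ≤ 1) (h : s ≠ r) :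
    ContinuousOn (fun p : ℂ × ℂ => (f p.1 - f p.2)⁻¹) (sphere 0 s ×ˢ sphere 0 r) := by
  rintro ⟨z, w⟩ ⟨hz, hw⟩
  have hz' : ‖z‖ = s := by simpa using hz
  have hw' : ‖w‖ = r := by simpa using hw
  have h1 : ‖z‖ < R := by linarith [H.lt]
  have h2 : ‖w‖ < R := by linarith [H.lt]
  exact ((((H.d z h1).continuousAt.comp (x := (z, w)) continuousAt_fst).sub
    ((H.d w h2).continuousAt.comp (x := (z, w)) continuousAt_snd)).inv₀
    (H.sub h1 h2 fun (e : z = w) => h (by rw [← hz', e, hw']))).continuousWithinAt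

theorem swap {s r : ℝ} (hs0 : 0 < s) (hr0 : 0 < r) (hs : s ≤ 1) (hr : r ≤ 1) (h : s ≠ r) (j k : ℤ) :
    TT f s r j k = cf (fun w => cf (fun z => (f z - f w)⁻¹) s j) r k :=
  cf_swap (A := fun z w => (f z - f w)⁻¹) hs0 hr0 (H.cont hs hr h) j k

theorem t1 {s r r' : ℝ} (h0 : 0 < r) (h1 : r ≤ r') (h2 : r' < s) (hs : s ≤ 1) (j k : ℤ) :
    TT f s r' j k = TT f s r j k :=
  cf_congr (by linarith) (fun z hz => cf_ann h0 h1 (fun w _ hw =>
    ((H.d w (by linarith [H.lt])).const_sub _).inv (H.sub (by linarith [H.lt])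
      (by linarith [H.lt]) fun e => by rw [← e] at hw; linarith)) k) j

theorem t2 {s r : ℝ} (h0 : 0 < r) (h1 : r < s) (hs : s ≤ 1) (j k : ℤ) :
    TT f 1 r j k = TT f s r j k := by
  rw [H.swap one_pos h0 le_rfl (by linarith) (by linarith),
    H.swap (by linarith) h0 hs (by linarith) h1.ne']
  exact cf_congr h0 (fun w hw => cf_ann (by linarith) hs (fun z hz hz' =>
    ((H.d z (by linarith [H.lt])).sub_const _).inv (H.sub (by linarith [H.lt])
      (by linarith [H.lt]) fun e => by rw [e] at hz; linarith)) j) k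

theorem t3 {s r : ℝ} (hs0 : 0 < s) (hr0 : 0 < r) (hs : s ≤ 1) (hr : r ≤ 1) (h : s ≠ r) (j k : ℤ) :
    TT f s r j k = -TT f r s k j := by
  rw [H.swap hs0 hr0 hs hr h, TT, ← neg_one_mul, ← cf_mul]
  refine cf_congr hr0 (fun w _ => ?_) k
  rw [← cf_mul]
  exact cf_congr hs0 (fun z _ => by rw [← neg_sub (f w), inv_neg, neg_one_mul]) j

theorem split {s : ℝ} {w : ℂ} (hs0 : 0 < s) (hs : s ≤ 1) (hw : ‖w‖ < 1) (h : ‖w‖ ≠ s) (j : ℤ) :
    cf (fun z => (f z - f w)⁻¹) s j =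
      cf (Rw f w) 1 j + (deriv f w)⁻¹ * cf (fun z => (z - w)⁻¹) s j := by
  have hd := H.rw_d (hw.trans H.lt)
  rw [cf_ann hs0 hs fun z _ hz => hd z (hz.trans_lt H.lt), ← cf_mul,
    ← cf_add (u' := fun z => (deriv f w)⁻¹ * (z - w)⁻¹) hs0 (fun z hz => (hd z (by
      rw [show ‖z‖ = s by simpa using hz]; linarith [H.lt])).continuousAt.continuousWithinAt)
      (continuousOn_const.mul (inv_cont h))]
  exact cf_congr hs0 (fun z hz => rw_eq fun (e : z = w) => h (by rw [← e]; exact hz)) j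

theorem big {w : ℂ} (h0 : w ≠ 0) (hw : ‖w‖ < 1) (j : ℕ) :
    cf (fun z => (f z - f w)⁻¹) 1 j = cf (Rw f w) 1 j := by
  rw [H.split one_pos le_rfl hw hw.ne, cf_big h0 hw, mul_zero, add_zero]

theorem v_c {r : ℝ} (hr : r ≤ 1) : ContinuousOn (fun z => (deriv f z)⁻¹) (sphere 0 r) :=
  fun z hz => (H.v_d z (by
    rw [show ‖z‖ = r by simpa using hz]; linarith [H.lt])).continuousAt.continuousWithinAt

theorem v_cf {r : ℝ} (h0 : 0 < r) (hr : r ≤ 1) (n : ℕ) :
    cf (fun z => (deriv f z)⁻¹) r n = vc f n :=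
  (cf_ann h0 hr (fun z _ hz => H.v_d z (hz.trans_lt H.lt)) n).symm

theorem sym (j k : ℕ) : TT f 1 (1 / 2) j k + TT f 1 (1 / 2) k j = vc f (j + k + 1) := by
  have h4 : TT f 1 (1 / 2) j k = TT f (1 / 4) (1 / 2) j k + vc f (j + k + 1) := by
    have hc : ContinuousOn (fun w : ℂ => w ^ (-(j + 1 : ℤ)) * (deriv f w)⁻¹) (sphere 0 (1 / 2)) :=
      (continuousOn_id.zpow₀ _ fun _ hz => Or.inl (ne0 (by norm_num) hz)).mul (H.v_c (by norm_num))
    have e : vc f (j + k + 1) = cf (fun w => w ^ (-(j + 1 : ℤ)) * (deriv f w)⁻¹) (1 / 2) k := by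
      rw [← H.v_cf (r := 1 / 2) (by norm_num) (by norm_num)]
      refine circleAverage_congr_sphere fun z hz => ?_
      have hz0 : z ≠ 0 := ne0 (by norm_num) hz
      simp only
      rw [← mul_assoc, ← zpow_add₀ hz0]
      congr 2
      push_cast
      ring
    rw [H.swap (by norm_num) (by norm_num) (by norm_num) (by norm_num) (by norm_num),
      H.swap (by norm_num) (by norm_num) (by norm_num) (by norm_num) (by norm_num), e,
      ← cf_add (by norm_num) (cf_cont (A := fun z w => (f z - f w)⁻¹) (by norm_num)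
        (H.cont (by norm_num) (by norm_num) (by norm_num)) j) hc]
    refine cf_congr (by norm_num) (fun w hw => ?_) k
    rw [H.big (norm_pos_iff.1 (by rw [hw]; norm_num)) (by rw [hw]; norm_num),
      H.split (by norm_num) (by norm_num) (by rw [hw]; norm_num) (by rw [hw]; norm_num),
      cf_small (by norm_num) (by rw [hw]; norm_num)]
    ring
  rw [h4, H.t3 (s := 1 / 4) (by norm_num) (by norm_num) (by norm_num) (by norm_num) (by norm_num),
    ← H.t2 (s := 1 / 2) (by norm_num) (by norm_num) (by norm_num),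
    ← H.t1 (r' := 1 / 2) (by norm_num) (by norm_num) (by norm_num) le_rfl]
  ring

theorem vsum {r : ℝ} (h0 : 0 < r) (hr : r ≤ 1) : HasSum (fun n : ℕ => ‖vc f n‖ ^ 2 * (r ^ 2) ^ n)
    (circleAverage (fun z => ‖(deriv f z)⁻¹‖ ^ 2) 0 r) := by
  have := pars_nat h0 fun z hz => H.v_d z ((hz.trans hr).trans_lt H.lt)
  simpa only [H.v_cf h0 hr] using this

theorem avg {r : ℝ} (h0 : 0 < r) (hr : r < 1) (N : ℕ) :
    ∑ j ∈ Finset.range N, ∑ k ∈ Finset.range N,
      (j + 1) * ‖TT f 1 (1 / 2) ((j + 1 : ℕ) : ℤ) k‖ ^ 2 * (r ^ 2) ^ k ≤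
      circleAverage (fun z => ‖(deriv f z)⁻¹‖ ^ 2) 0 r / (1 - r ^ 2) ^ 2 := by
  have hT : ∀ j k : ℤ, TT f 1 (1 / 2) j k = TT f 1 r j k := fun j k => by
    rcases le_total r (1 / 2) with h | h
    · exact H.t1 h0 h (by norm_num) le_rfl j k
    · exact (H.t1 (by norm_num) h hr le_rfl j k).symm
  have hc : ∀ j : ℤ, ContinuousOn (fun w => cf (fun z => (f z - f w)⁻¹) 1 j) (sphere 0 r) :=
    cf_cont (A := fun z w => (f z - f w)⁻¹) one_pos (H.cont le_rfl hr.le hr.ne')
  have hi : ∀ j : ℕ, CircleIntegrable (fun w => ((j : ℝ) + 1) •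
      ‖cf (fun z => (f z - f w)⁻¹) 1 ((j + 1 : ℕ) : ℤ)‖ ^ 2) 0 r := fun j =>
    ContinuousOn.circleIntegrable h0.le (((hc ((j + 1 : ℕ) : ℤ)).norm.pow 2).const_smul ((j : ℝ) + 1))
  calc _ ≤ ∑ j ∈ Finset.range N, circleAverage (fun w => ((j : ℝ) + 1) •
        ‖cf (fun z => (f z - f w)⁻¹) 1 ((j + 1 : ℕ) : ℤ)‖ ^ 2) 0 r := by
        refine Finset.sum_le_sum fun j _ => ?_
        rw [circleAverage_fun_smul, smul_eq_mul]
        refine le_trans (le_of_eq ?_) (mul_le_mul_of_nonneg_left (bessel h0 (hc _) N)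
          (by positivity))
        rw [Finset.mul_sum]
        refine Finset.sum_congr rfl fun k _ => ?_
        rw [hT, H.swap one_pos h0 le_rfl hr.le hr.ne', mul_assoc]
    _ ≤ circleAverage (fun w => ((1 - r ^ 2) ^ 2)⁻¹ • ‖(deriv f w)⁻¹‖ ^ 2) 0 r := by
        rw [← circleAverage_fun_sum fun j _ => hi j]
        refine circleAverage_mono (ContinuousOn.circleIntegrable h0.le (continuousOn_finset_sum _
          fun j _ => ((hc ((j + 1 : ℕ) : ℤ)).norm.pow 2).const_smul ((j : ℝ) + 1)))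
          (ContinuousOn.circleIntegrable h0.le
          (((H.v_c hr.le).norm.pow 2).const_smul ((1 - r ^ 2) ^ 2)⁻¹)) fun w hw => ?_
        have hw' : ‖w‖ = r := by simpa [abs_of_pos h0] using hw
        have := H.col (hw'.trans_lt hr) N
        rw [hw', div_eq_inv_mul] at this
        refine le_trans (le_of_eq (Finset.sum_congr rfl fun j _ => ?_)) this
        rw [H.big (norm_pos_iff.1 (hw' ▸ h0)) (hw'.trans_lt hr)]
        rfl
    _ = _ := by rw [circleAverage_fun_smul, smul_eq_mul, div_eq_inv_mul]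

end Un

end Vale.Agent.P142
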